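import Vale.Agent.P101.Lit.Conn
import Vale.Agent.P101.Lit.Model.Flow

/-!
P095: deep stages contain elements of square zero which almost commute with a given finite set and
are a two by two matrix unit up to a small trace at every point.
-/

open scoped unitInterval ComplexOrder

namespace Vale.Agent.P095.Rel.Z

open Vale.Agent.P101.Lit

/-- The defect of a two by two matrix unit. -/
def defect {R : Type*} [Ring R] [Star R] (h : R) : R := star h * h + h * star h - 1

/-- The pairing partial isometry of `M_q`. -/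
def pairMat (q : ℕ) : Matrix (Fin q) (Fin q) ℂ :=
  fun x y => if x.1 + 1 = y.1 ∧ x.1 % 2 = 0 then 1 else 0

theorem pairMat_mul_self (q : ℕ) : pairMat q * pairMat q = 0 := by
  ext x y
  rw [Matrix.mul_apply]
  refine Finset.sum_eq_zero fun z _ => ?_
  simp only [pairMat, mul_ite, mul_one, mul_zero]
  split_ifs <;> first | rfl | omega

theorem pairMat_diag (q : ℕ) :
    (pairMat q).conjTranspose * pairMat q + pairMat q * (pairMat q).conjTranspose =
      Matrix.diagonal fun x : Fin q => if x.1 + 1 = q ∧ x.1 % 2 = 0 then (0 : ℂ) else 1 := by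
  ext x y
  rw [Matrix.add_apply, Matrix.mul_apply, Matrix.mul_apply, Matrix.diagonal_apply]
  simp only [pairMat, Matrix.conjTranspose_apply, apply_ite star, star_one, star_zero, mul_ite,
    mul_one, mul_zero]
  rcases eq_or_ne x y with rfl | hxy
  · rw [if_pos rfl]
    by_cases hx : x.1 % 2 = 0
    · rw [Finset.sum_eq_zero (s := Finset.univ) fun z _ => ?_, zero_add]
      · by_cases hx' : x.1 + 1 = q
        · rw [if_pos ⟨hx', hx⟩]
          refine Finset.sum_eq_zero fun z _ => ?_
          split_ifs <;> first | rfl | omega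
        · rw [if_neg fun h => hx' h.1, Finset.sum_eq_single ⟨x.1 + 1, by omega⟩]
          · simp [hx]
          · intro z _ hz
            have : z.1 ≠ x.1 + 1 := fun e => hz (Fin.ext e)
            split_ifs <;> first | rfl | omega
          · simp
      · split_ifs <;> first | rfl | omega
    · rw [if_neg fun h => hx h.2, Finset.sum_eq_single ⟨x.1 - 1, by omega⟩,
        Finset.sum_eq_zero (s := Finset.univ) fun z _ => ?_, add_zero]
      · simp only
        rw [if_pos, if_pos]
        all_goals omega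
      · split_ifs <;> first | rfl | omega
      · intro z _ hz
        have : z.1 ≠ x.1 - 1 := fun e => hz (Fin.ext e)
        split_ifs <;> first | rfl | omega
      · simp
  · rw [if_neg hxy, Finset.sum_eq_zero fun z _ => ?_, Finset.sum_eq_zero fun z _ => ?_, add_zero]
    all_goals
      have := Fin.val_ne_iff.2 hxy
      split_ifs <;> first | rfl | omega

variable {p q : ℕ}

/-- `1 ⊗ X`. -/
noncomputable def oneX (p q : ℕ) : CStarMatrix (Ix p q) (Ix p q) ℂ :=
  CStarMatrix.ofMatrix (Matrix.of fun x y => if x.1 = y.1 then pairMat q x.2 y.2 else 0)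

theorem oneX_mul_self : oneX p q * oneX p q = 0 := by
  ext x y
  rw [CStarMatrix.mul_apply, Fintype.sum_prod_type]
  simp only [oneX, CStarMatrix.ofMatrix_apply, Matrix.of_apply, ite_mul, zero_mul, mul_ite,
    mul_zero, CStarMatrix.zero_apply]
  have h := congrFun (congrFun (pairMat_mul_self q) x.2) y.2
  rw [Matrix.mul_apply, Matrix.zero_apply] at h
  rw [Finset.sum_eq_single x.1]
  · by_cases e : x.1 = y.1
    · simpa [e] using h
    · simp [e]
  · intro z _ hz
    simp [Ne.symm hz]
  · simp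

/-- The diagonal of `X* X + X X*`. -/
noncomputable def oneD (p q : ℕ) (x : Ix p q) : ℂ :=
  if x.2.1 + 1 = q ∧ x.2.1 % 2 = 0 then 0 else 1

theorem oneX_diag : star (oneX p q) * oneX p q + oneX p q * star (oneX p q) =
    CStarMatrix.ofMatrix (Matrix.diagonal (oneD p q)) := by
  ext x y
  rw [CStarMatrix.add_apply, CStarMatrix.mul_apply, CStarMatrix.mul_apply, Fintype.sum_prod_type,
    Fintype.sum_prod_type]
  simp only [oneX, CStarMatrix.star_apply, CStarMatrix.ofMatrix_apply, Matrix.of_apply,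
    apply_ite star, star_zero, ite_mul, zero_mul, mul_ite, mul_zero]
  have h := congrFun (congrFun (pairMat_diag q) x.2) y.2
  rw [Matrix.add_apply, Matrix.mul_apply, Matrix.mul_apply] at h
  simp only [Matrix.conjTranspose_apply] at h
  rw [Finset.sum_eq_single x.1, Finset.sum_eq_single x.1]
  · by_cases e : x.1 = y.1
    · simp only [e, if_true]
      rw [h, Matrix.diagonal_apply, Matrix.diagonal_apply, oneD]
      simp only [Prod.ext_iff, e, true_and]
    · have : x ≠ y := fun h' => e (congrArg Prod.fst h')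
      simp [e, Ne.symm e, this]
  all_goals first
    | exact fun h => absurd (Finset.mem_univ _) h
    | intro z _ hz
      simp [hz, Ne.symm hz]

theorem norm_oneX_le : ‖oneX p q‖ ≤ 1 := by
  let _ : PartialOrder (CStarMatrix (Ix p q) (Ix p q) ℂ) := CStarAlgebra.spectralOrder _
  have : StarOrderedRing (CStarMatrix (Ix p q) (Ix p q) ℂ) :=
    CStarAlgebra.spectralOrderedRing _
  set X := oneX p q
  have e : star (star X * X) * (star X * X) = star X * X := by
    have h2 : X * star X * X = X := by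
      have h1 : X * (star X * X + X * star X) = X * star X * X := by
        rw [mul_add, ← mul_assoc X X, oneX_mul_self, zero_mul, add_zero, mul_assoc]
      rw [← h1, oneX_diag]
      ext x y
      simp only [X, oneX, CStarMatrix.mul_apply, CStarMatrix.ofMatrix_apply, Matrix.of_apply,
        Matrix.diagonal_apply, mul_ite, mul_zero, Finset.sum_ite_eq', Finset.mem_univ, if_true,
        oneD]
      split_ifs <;> simp_all [pairMat] <;> omega
    rw [star_mul, star_star, mul_assoc, ← mul_assoc X, h2]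
  have h := CStarRing.norm_star_mul_self (x := star X * X)
  have h0 : ‖star X * X‖ = ‖X‖ * ‖X‖ := CStarRing.norm_star_mul_self
  rw [e, h0] at h
  clear h0
  rcases eq_or_ne ‖X‖ 0 with h0 | h0
  · rw [h0]; exact zero_le_one
  have h' : ‖X‖ * ‖X‖ * (‖X‖ * ‖X‖) = 1 * (‖X‖ * ‖X‖) := by rw [one_mul]; exact h.symm
  have := mul_right_cancel₀ (mul_ne_zero h0 h0) h'
  nlinarith [norm_nonneg X]

theorem commute_oneX_of_left {g : CStarMatrix (Ix p q) (Ix p q) ℂ}
    (hg : IsLeftEnd p q fun x y => g x y) : oneX p q * g = g * oneX p q := by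
  obtain ⟨a, ha⟩ := hg
  ext x y
  rw [CStarMatrix.mul_apply, CStarMatrix.mul_apply, Fintype.sum_prod_type, Fintype.sum_prod_type]
  simp only [oneX, CStarMatrix.ofMatrix_apply, Matrix.of_apply, ha, ite_mul, zero_mul, mul_ite,
    mul_zero]
  rw [Finset.sum_eq_single x.1, Finset.sum_eq_single y.1]
  · simp only [if_true, Finset.sum_ite_eq, Finset.sum_ite_eq', Finset.mem_univ]
    rw [mul_comm]
  all_goals first
    | exact fun h => absurd (Finset.mem_univ _) h
    | intro z _ hz
      simp [hz, Ne.symm hz]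

theorem trace_diag_defect_le {c : ℝ} (hc0 : 0 ≤ c) (hc1 : c ≤ 1) :
    0 ≤ ∑ x : Ix p q, ((c * c * (oneD p q x).re - 1) * (c * c * (oneD p q x).re - 1)) ∧
      ∑ x : Ix p q, ((c * c * (oneD p q x).re - 1) * (c * c * (oneD p q x).re - 1)) ≤ p * q ∧
      (c = 1 → ∑ x : Ix p q, ((c * c * (oneD p q x).re - 1) * (c * c * (oneD p q x).re - 1)) ≤ p) := by
  refine ⟨Finset.sum_nonneg fun x _ => mul_self_nonneg _, ?_, fun h => ?_⟩
  · refine (Finset.sum_le_sum (g := fun _ => (1 : ℝ)) fun x _ => ?_).trans (by simp)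
    have h1 : c * c ≤ 1 := mul_le_one₀ hc1 hc0 hc1
    have h0 : 0 ≤ c * c := mul_self_nonneg c
    rw [oneD]
    split_ifs <;> simp <;> nlinarith
  · subst h
    rw [Fintype.sum_prod_type]
    refine (Finset.sum_le_sum (g := fun _ => (1 : ℝ)) fun i _ => ?_).trans (by simp)
    rcases Nat.eq_zero_or_pos q with hq | hq
    · subst hq; simp
    rw [Finset.sum_eq_single ⟨q - 1, by omega⟩]
    · simp only [oneD]
      split_ifs <;> simp
    · intro z _ hz
      have : z.1 + 1 ≠ q := fun e => hz (Fin.ext (by simp; omega))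
      simp [oneD, this]
    · simp

theorem wd_card {p q k₀ k₁ : ℕ} (h : StepOK p q k₀ k₁) :
    r₀ q k₀ k₁ + r₁ p k₀ k₁ ≤ k₀ * k₁ := r₀_add_r₁_le h.2.1 h.1 h.2.2.1 h.2.2.2.1

/-- The weight of a word in the construction. -/
noncomputable def weight {p q k₀ k₁ : ℕ} : Wd p q k₀ k₁ → I → ℝ
  | .inl _, t => t
  | .inr (.inl _), _ => 1
  | .inr (.inr _), t => 1 - t

theorem weight_mem {p q k₀ k₁ : ℕ} (w : Wd p q k₀ k₁) (t : I) :
    0 ≤ weight w t ∧ weight w t ≤ 1 := by
  rcases w with w | w | w <;> simp only [weight] <;> constructor <;> linarith [t.2.1, t.2.2]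

theorem continuous_weight {p q k₀ k₁ : ℕ} (w : Wd p q k₀ k₁) : Continuous (weight w) := by
  rcases w with w | w | w
  · exact continuous_subtype_val
  · exact continuous_const
  · exact continuous_const.sub continuous_subtype_val

/-- The growth of the exponents. -/
theorem le_expo (i : ℕ) : i ≤ (expo i).1 ∧ i ≤ (expo i).2 := by
  induction i with
  | zero => simp
  | succ i ih => have := expo_bounds i; simp only [expo]; omega

theorem step_ratio_le (j : ℕ) :
    (pp j : ℝ) / kr j + (qq j : ℝ) / kl j + 1 / qq j ≤ 3 * (3 / 4 : ℝ) ^ j := by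
  obtain ⟨ha, hb⟩ := le_expo j
  have h0 : (0 : ℝ) ≤ 3 / 4 := by norm_num
  have h1 : (3 : ℝ) / 4 ≤ 1 := by norm_num
  have e1 : (pp j : ℝ) / kr j = (2 / 3 : ℝ) ^ (expo j).1 := by
    rw [pp_eq, kr]; push_cast; rw [← div_pow]
  have e2 : (qq j : ℝ) / kl j ≤ (3 / 4 : ℝ) ^ (expo j).2 := by
    rw [qq_eq, kl]; push_cast
    rw [div_le_iff₀ (by positivity), pow_succ, pow_mul, ← mul_assoc, ← mul_pow]
    norm_num
  have e3 : (1 : ℝ) / qq j = (1 / 3 : ℝ) ^ (expo j).2 := by
    rw [qq_eq]; push_cast; rw [one_div_pow]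
  have f1 : (2 / 3 : ℝ) ^ (expo j).1 ≤ (3 / 4) ^ j :=
    (pow_le_pow_left₀ (by norm_num) (by norm_num) _).trans (pow_le_pow_of_le_one h0 h1 ha)
  have f2 : (3 / 4 : ℝ) ^ (expo j).2 ≤ (3 / 4) ^ j := pow_le_pow_of_le_one h0 h1 hb
  have f3 : (1 / 3 : ℝ) ^ (expo j).2 ≤ (3 / 4) ^ j :=
    (pow_le_pow_left₀ (by norm_num) (by norm_num) _).trans f2
  rw [e1, e3]
  linarith

section Elem

variable {k₀ k₁ : ℕ}

/-- The value at a point of the element built from a flow. -/
noncomputable def blockVal (u : Amb ℂ p q) (w : Wd p q k₀ k₁) (t : I) :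
    CStarMatrix (Ix p q) (Ix p q) ℂ :=
  (weight w t : ℂ) • (u (xi p q k₀ k₁ w t) * oneX p q * star (u (xi p q k₀ k₁ w t)))

/-- The element built from a flow, as a function. -/
noncomputable def nilFun (u : Amb ℂ p q) : Amb ℂ (k₀ * p) (k₁ * q) :=
  ⟨fun t => CStarMatrix.ofMatrix (Matrix.of fun x y =>
      stepVal (stepPath p q k₀ k₁ t) (fun w i i' => blockVal u w t i i') x y), by
    refine continuous_pi fun x => continuous_pi fun y => ?_
    show Continuous fun t => ∑ w, ∑ i, ∑ i',
      (stepPath p q k₀ k₁ t x (i, w) * star (stepPath p q k₀ k₁ t y (i', w))) •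
        (blockVal u w t i i')
    refine continuous_finsetSum _ fun w _ => continuous_finsetSum _ fun i _ =>
      continuous_finsetSum _ fun i' _ => ?_
    refine (((continuous_apply_apply _ _).comp (stepPath p q k₀ k₁).continuous).mul
      (continuous_star.comp
        ((continuous_apply_apply _ _).comp (stepPath p q k₀ k₁).continuous))).smul ?_
    refine (continuous_apply_apply i i').comp ?_
    exact (Complex.continuous_ofReal.comp (continuous_weight w)).smul
      (((u.continuous.comp (xi p q k₀ k₁ w).continuous).mul continuous_const).mul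
        (continuous_star.comp (u.continuous.comp (xi p q k₀ k₁ w).continuous)))⟩

theorem nilFun_mem (hok : StepOK p q k₀ k₁) (u : Amb ℂ p q) :
    nilFun u ∈ St ℂ (k₀ * p) (k₁ * q) := by
  have hpath := isStepPath_stepPath hok
  have hz : ∀ (F : I → CStarMatrix (Ix p q) (Ix p q) ℂ) (t : I),
      ((0 : ℝ) : ℂ) • F t = 0 := fun F t => by rw [Complex.ofReal_zero, zero_smul]
  set mid : I := ⟨1 / 2, by constructor <;> norm_num⟩
  set M : Ix p q → Ix p q → ℂ := fun i i' => (u mid * oneX p q * star (u mid)) i i'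
  constructor
  · have h := hpath.2.1 (fun _ _ => 0) M ⟨fun _ _ => 0, fun x y => by simp⟩
    have e : (fun w i i' => blockVal u w 0 i i') =
        fun w : Wd p q k₀ k₁ => Sum.elim (fun _ => fun _ _ => (0 : ℂ)) (fun _ => M) w := by
      funext w i i'
      rcases w with w | w | w
      · simp [blockVal, weight]
      · simp [blockVal, weight, xi_zero_of_inr, M, mid]
      · simp [blockVal, weight, xi_zero_of_inr, M, mid]
    show IsLeftEnd _ _ (stepVal (stepPath p q k₀ k₁ 0) fun w i i' => blockVal u w 0 i i')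
    rw [e]
    exact h
  · have h := hpath.2.2 M (fun _ _ => 0) ⟨fun _ _ => 0, fun x y => by simp⟩
    have e : (fun w i i' => blockVal u w 1 i i') = fun w : Wd p q k₀ k₁ =>
        Sum.elim (fun _ => M) (Sum.elim (fun _ => M) fun _ => fun _ _ => (0 : ℂ)) w := by
      funext w i i'
      rcases w with w | w | w
      · simp [blockVal, weight, xi_one_of_inl, M, mid]
      · simp [blockVal, weight, xi_one_of_mid, M, mid]
      · simp [blockVal, weight]
    show IsRightEnd _ _ (stepVal (stepPath p q k₀ k₁ 1) fun w i i' => blockVal u w 1 i i')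
    rw [e]
    exact h

/-- Conjugation of a block diagonal by the path. -/
noncomputable def sand (t : I) (F : Wd p q k₀ k₁ → CStarMatrix (Ix p q) (Ix p q) ℂ) :
    CStarMatrix (Ix (k₀ * p) (k₁ * q)) (Ix (k₀ * p) (k₁ * q)) ℂ :=
  CStarMatrix.ofMatrix (stepPath p q k₀ k₁ t *
    Matrix.blockDiagonal (fun w => CStarMatrix.ofMatrix.symm (F w)) *
    (stepPath p q k₀ k₁ t).conjTranspose)

theorem stepVal_eq_sand (t : I) (F : Wd p q k₀ k₁ → CStarMatrix (Ix p q) (Ix p q) ℂ) :
    CStarMatrix.ofMatrix (Matrix.of fun x y =>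
      stepVal (stepPath p q k₀ k₁ t) (fun w i i' => F w i i') x y) = sand t F :=
  CStarMatrix.ext fun x y => stepVal_eq_sandwich _ (fun w => CStarMatrix.ofMatrix.symm (F w)) x y

theorem nilFun_apply (u : Amb ℂ p q) (t : I) :
    (nilFun u : Amb ℂ (k₀ * p) (k₁ * q)) t = sand t (fun w => blockVal u w t) :=
  stepVal_eq_sand t (fun w => blockVal u w t)

theorem step_apply_sand (g : Amb ℂ p q) (t : I) :
    step k₀ k₁ g t = sand t (fun w => g (xi p q k₀ k₁ w t)) :=
  stepVal_eq_sand t (fun w => g (xi p q k₀ k₁ w t))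

theorem sand_mul (hok : StepOK p q k₀ k₁) (t : I)
    (F F' : Wd p q k₀ k₁ → CStarMatrix (Ix p q) (Ix p q) ℂ) :
    sand t F * sand t F' = sand t (fun w => F w * F' w) := by
  show (stepPath p q k₀ k₁ t * Matrix.blockDiagonal (fun w => CStarMatrix.ofMatrix.symm (F w)) *
      (stepPath p q k₀ k₁ t).conjTranspose) * (stepPath p q k₀ k₁ t *
      Matrix.blockDiagonal (fun w => CStarMatrix.ofMatrix.symm (F' w)) *
      (stepPath p q k₀ k₁ t).conjTranspose) = stepPath p q k₀ k₁ t * Matrix.blockDiagonal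
        (fun w => CStarMatrix.ofMatrix.symm (F w) * CStarMatrix.ofMatrix.symm (F' w)) *
      (stepPath p q k₀ k₁ t).conjTranspose
  simp only [Matrix.mul_assoc]
  rw [← Matrix.mul_assoc (stepPath p q k₀ k₁ t).conjTranspose,
    ((isStepPath_stepPath hok).1 t).1, Matrix.one_mul, Matrix.blockDiagonal_mul, Matrix.mul_assoc]

theorem sand_sub (t : I) (F F' : Wd p q k₀ k₁ → CStarMatrix (Ix p q) (Ix p q) ℂ) :
    sand t F - sand t F' = sand t (fun w => F w - F' w) := by
  refine CStarMatrix.ofMatrix.symm.injective ?_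
  set U : Matrix (Ix (k₀ * p) (k₁ * q)) (Ix p q × Wd p q k₀ k₁) ℂ := stepPath p q k₀ k₁ t with hU
  show U * Matrix.blockDiagonal (fun w => CStarMatrix.ofMatrix.symm (F w)) * U.conjTranspose -
      U * Matrix.blockDiagonal (fun w => CStarMatrix.ofMatrix.symm (F' w)) * U.conjTranspose =
    U * Matrix.blockDiagonal ((fun w => CStarMatrix.ofMatrix.symm (F w)) -
      fun w => CStarMatrix.ofMatrix.symm (F' w)) * U.conjTranspose
  rw [Matrix.blockDiagonal_sub, Matrix.mul_sub, Matrix.sub_mul]

theorem sand_add (t : I) (F F' : Wd p q k₀ k₁ → CStarMatrix (Ix p q) (Ix p q) ℂ) :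
    sand t F + sand t F' = sand t (fun w => F w + F' w) := by
  refine CStarMatrix.ofMatrix.symm.injective ?_
  set U : Matrix (Ix (k₀ * p) (k₁ * q)) (Ix p q × Wd p q k₀ k₁) ℂ := stepPath p q k₀ k₁ t with hU
  show U * Matrix.blockDiagonal (fun w => CStarMatrix.ofMatrix.symm (F w)) * U.conjTranspose +
      U * Matrix.blockDiagonal (fun w => CStarMatrix.ofMatrix.symm (F' w)) * U.conjTranspose =
    U * Matrix.blockDiagonal ((fun w => CStarMatrix.ofMatrix.symm (F w)) +
      fun w => CStarMatrix.ofMatrix.symm (F' w)) * U.conjTranspose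
  rw [Matrix.blockDiagonal_add, Matrix.mul_add, Matrix.add_mul]

theorem sand_star (t : I) (F : Wd p q k₀ k₁ → CStarMatrix (Ix p q) (Ix p q) ℂ) :
    star (sand t F) = sand t (fun w => star (F w)) := by
  refine CStarMatrix.ofMatrix.symm.injective ?_
  set U : Matrix (Ix (k₀ * p) (k₁ * q)) (Ix p q × Wd p q k₀ k₁) ℂ := stepPath p q k₀ k₁ t with hU
  show (U * Matrix.blockDiagonal (fun w => CStarMatrix.ofMatrix.symm (F w)) *
      U.conjTranspose).conjTranspose = U *
      Matrix.blockDiagonal (fun w => (CStarMatrix.ofMatrix.symm (F w)).conjTranspose) *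
      U.conjTranspose
  rw [Matrix.conjTranspose_mul, Matrix.conjTranspose_mul, Matrix.conjTranspose_conjTranspose,
    Matrix.blockDiagonal_conjTranspose, Matrix.mul_assoc]

theorem sand_one (hok : StepOK p q k₀ k₁) (t : I) :
    (1 : CStarMatrix (Ix (k₀ * p) (k₁ * q)) (Ix (k₀ * p) (k₁ * q)) ℂ) =
      sand t (fun _ : Wd p q k₀ k₁ => 1) := by
  refine CStarMatrix.ofMatrix.symm.injective ?_
  have hU := ((isStepPath_stepPath hok).1 t).2
  set U : Matrix (Ix (k₀ * p) (k₁ * q)) (Ix p q × Wd p q k₀ k₁) ℂ := stepPath p q k₀ k₁ t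
  show (1 : Matrix (Ix (k₀ * p) (k₁ * q)) (Ix (k₀ * p) (k₁ * q)) ℂ) = U *
    Matrix.blockDiagonal (1 : Wd p q k₀ k₁ → Matrix (Ix p q) (Ix p q) ℂ) * U.conjTranspose
  rw [Matrix.blockDiagonal_one, Matrix.mul_one, hU]

theorem trace_sand (hok : StepOK p q k₀ k₁) (t : I)
    (F : Wd p q k₀ k₁ → CStarMatrix (Ix p q) (Ix p q) ℂ) :
    ∑ x, sand t F x x = ∑ w, ∑ x, F w x x := by
  have hU := ((isStepPath_stepPath hok).1 t).1
  set U : Matrix (Ix (k₀ * p) (k₁ * q)) (Ix p q × Wd p q k₀ k₁) ℂ := stepPath p q k₀ k₁ t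
  show Matrix.trace (U * Matrix.blockDiagonal (fun w => CStarMatrix.ofMatrix.symm (F w)) *
    U.conjTranspose) = _
  rw [Matrix.trace_mul_cycle, hU, Matrix.one_mul, Matrix.trace_blockDiagonal]
  rfl

theorem norm_sand_le (hok : StepOK p q k₀ k₁) (t : I)
    (F : Wd p q k₀ k₁ → CStarMatrix (Ix p q) (Ix p q) ℂ) {c : ℝ} (hc : 0 ≤ c)
    (hF : ∀ w, ‖F w‖ ≤ c) : ‖sand t F‖ ≤ c :=
  norm_sandwich_le _ ((isStepPath_stepPath hok).1 t).1 ((isStepPath_stepPath hok).1 t).2 F hc hF

variable {u : Amb ℂ p q} (hu : ∀ s, u s ∈ unitary (CStarMatrix (Ix p q) (Ix p q) ℂ))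
  (hok : StepOK p q k₀ k₁)
include hu

theorem conj_mul (s : I) (a b : CStarMatrix (Ix p q) (Ix p q) ℂ) :
    u s * a * star (u s) * (u s * b * star (u s)) = u s * (a * b) * star (u s) := by
  simp only [mul_assoc]
  rw [← mul_assoc (star (u s)) (u s), Unitary.star_mul_self_of_mem (hu s), one_mul]

theorem norm_blockVal_le (w : Wd p q k₀ k₁) (t : I) : ‖blockVal u w t‖ ≤ 1 := by
  obtain ⟨h0, h1⟩ := weight_mem w t
  rw [blockVal, norm_smul, Complex.norm_real, Real.norm_of_nonneg h0,
    CStarRing.norm_mul_mem_unitary _ (Unitary.star_mem (hu _)),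
    CStarRing.norm_mem_unitary_mul _ (hu _)]
  exact mul_le_one₀ h1 (norm_nonneg _) norm_oneX_le

theorem blockVal_sq (w : Wd p q k₀ k₁) (t : I) : blockVal u w t * blockVal u w t = 0 := by
  rw [blockVal, smul_mul_smul_comm, conj_mul hu, oneX_mul_self, mul_zero, zero_mul, smul_zero]

include hok

theorem nilFun_mul_self : nilFun (k₀ := k₀) (k₁ := k₁) u * nilFun u = 0 :=
  ContinuousMap.ext fun t => by
    rw [ContinuousMap.mul_apply, ContinuousMap.zero_apply, nilFun_apply, sand_mul hok]
    refine norm_le_zero_iff.1 (norm_sand_le hok t _ le_rfl fun w => ?_)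
    rw [blockVal_sq hu w t, norm_zero]

theorem norm_nilFun_le : ‖nilFun (k₀ := k₀) (k₁ := k₁) u‖ ≤ 1 :=
  (ContinuousMap.norm_le _ zero_le_one).2 fun t => by
    rw [nilFun_apply]
    exact norm_sand_le hok t _ zero_le_one fun w => norm_blockVal_le hu w t

theorem norm_comm_nilFun_le {g : St ℂ p q} {ε : ℝ}
    (hg : ∀ t, ‖u t * (g : Amb ℂ p q) 0 * star (u t) - (g : Amb ℂ p q) t‖ ≤ ε) :
    ‖nilFun (k₀ := k₀) (k₁ := k₁) u * step k₀ k₁ (g : Amb ℂ p q) -
      step k₀ k₁ (g : Amb ℂ p q) * nilFun u‖ ≤ 2 * ε := by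
  have hε : 0 ≤ ε := (norm_nonneg _).trans (hg 0)
  refine (ContinuousMap.norm_le _ (by positivity)).2 fun t => ?_
  rw [ContinuousMap.sub_apply, ContinuousMap.mul_apply, ContinuousMap.mul_apply, nilFun_apply,
    step_apply_sand, sand_mul hok, sand_mul hok, sand_sub]
  refine norm_sand_le hok t _ (by positivity) fun w => ?_
  set s := xi p q k₀ k₁ w t
  set d := (g : Amb ℂ p q) s - u s * (g : Amb ℂ p q) 0 * star (u s)
  have hd : ‖d‖ ≤ ε := by rw [norm_sub_rev]; exact hg s
  have hcomm := commute_oneX_of_left g.2.1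
  have e : blockVal u w t * (g : Amb ℂ p q) s - (g : Amb ℂ p q) s * blockVal u w t =
      blockVal u w t * d - d * blockVal u w t := by
    have h1 : u s * oneX p q * star (u s) * (u s * (g : Amb ℂ p q) 0 * star (u s)) =
        u s * (g : Amb ℂ p q) 0 * star (u s) * (u s * oneX p q * star (u s)) := by
      rw [conj_mul hu, conj_mul hu, hcomm]
    have e0 : (g : Amb ℂ p q) s = d + u s * (g : Amb ℂ p q) 0 * star (u s) :=
      (sub_add_cancel _ _).symm
    have hb : blockVal u w t = (weight w t : ℂ) • (u s * oneX p q * star (u s)) := rfl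
    rw [hb]
    clear_value d
    rw [e0]
    simp only [mul_add, add_mul, smul_add, smul_mul_assoc, mul_smul_comm, h1]
    abel
  rw [e]
  have hb := norm_blockVal_le hu w t
  linarith [norm_sub_le (blockVal u w t * d) (d * blockVal u w t),
    (norm_mul_le (blockVal u w t) d).trans (mul_le_mul hb hd (norm_nonneg _) zero_le_one),
    (norm_mul_le d (blockVal u w t)).trans (mul_le_mul hd hb (norm_nonneg _) hε)]

theorem trace_defect_le (t : I) :
    (∑ x, ((defect (nilFun u : Amb ℂ (k₀ * p) (k₁ * q)) *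
      defect (nilFun u : Amb ℂ (k₀ * p) (k₁ * q))) t x x).re) ≤
      ((r₀ q k₀ k₁ : ℝ) + r₁ p k₀ k₁) * (p * q) +
        (k₀ * k₁ - r₀ q k₀ k₁ - r₁ p k₀ k₁ : ℕ) * p := by
  have e : (defect (nilFun u : Amb ℂ (k₀ * p) (k₁ * q)) *
      defect (nilFun u : Amb ℂ (k₀ * p) (k₁ * q))) t =
      sand t (fun w => defect (blockVal u w t) * defect (blockVal u w t)) := by
    have e1 : defect (nilFun u : Amb ℂ (k₀ * p) (k₁ * q)) t =
        sand t (fun w => defect (blockVal u w t)) := by
      simp only [defect, ContinuousMap.sub_apply, ContinuousMap.add_apply, ContinuousMap.mul_apply,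
        ContinuousMap.star_apply, ContinuousMap.one_apply, nilFun_apply]
      rw [sand_star, sand_mul hok, sand_mul hok, sand_add, sand_one hok t, sand_sub]
    rw [ContinuousMap.mul_apply, e1, sand_mul hok]
  have htr : ∀ w, (∑ x, (defect (blockVal u w t) * defect (blockVal u w t)) x x) =
      ∑ x : Ix p q, (((weight w t * weight w t * (oneD p q x).re - 1) *
        (weight w t * weight w t * (oneD p q x).re - 1) : ℝ) : ℂ) := fun w => by
    set c := weight w t
    set s := xi p q k₀ k₁ w t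
    set Dg : CStarMatrix (Ix p q) (Ix p q) ℂ :=
      CStarMatrix.ofMatrix (Matrix.diagonal fun x => ((c * c * (oneD p q x).re - 1 : ℝ) : ℂ))
    have hD : ∀ x, ((oneD p q x).re : ℂ) = oneD p q x := fun x => by
      simp only [oneD]; split_ifs <;> simp
    have e2 : defect (blockVal u w t) = u s * Dg * star (u s) := by
      have h1 : Dg = ((c * c : ℝ) : ℂ) • CStarMatrix.ofMatrix (Matrix.diagonal (oneD p q)) - 1 := by
        ext x y
        simp only [Dg, CStarMatrix.sub_apply, CStarMatrix.smul_apply, CStarMatrix.one_apply,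
          CStarMatrix.ofMatrix_apply, Matrix.diagonal_apply]
        split_ifs <;> simp [hD]
      rw [h1, ← oneX_diag, defect, blockVal, star_smul, Complex.star_def, Complex.conj_ofReal,
        smul_mul_smul_comm, smul_mul_smul_comm, ← smul_add, star_mul, star_mul, star_star,
        ← Complex.ofReal_mul, ← mul_assoc (u s) (star (oneX p q)) (star (u s)), conj_mul hu,
        conj_mul hu, mul_sub, sub_mul, mul_one, Unitary.mul_star_self_of_mem (hu s),
        mul_smul_comm, smul_mul_assoc, mul_add, add_mul]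
    rw [e2, conj_mul hu]
    show Matrix.trace (CStarMatrix.ofMatrix.symm (u s) * CStarMatrix.ofMatrix.symm (Dg * Dg) *
      (CStarMatrix.ofMatrix.symm (u s)).conjTranspose) = _
    rw [Matrix.trace_mul_cycle, show (CStarMatrix.ofMatrix.symm (u s)).conjTranspose *
      CStarMatrix.ofMatrix.symm (u s) = 1 from Unitary.star_mul_self_of_mem (hu s), Matrix.one_mul]
    show Matrix.trace
      (Matrix.diagonal (fun x => ((c * c * (oneD p q x).re - 1 : ℝ) : ℂ)) *
        Matrix.diagonal (fun x => ((c * c * (oneD p q x).re - 1 : ℝ) : ℂ))) = _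
    rw [Matrix.diagonal_mul_diagonal, Matrix.trace_diagonal]
    simp
  rw [← Complex.re_sum, e, trace_sand hok]
  simp only [htr, ← Complex.ofReal_sum, Complex.ofReal_re]
  rw [Fintype.sum_sum_type, Fintype.sum_sum_type]
  have side : ∀ w : Wd p q k₀ k₁, ∑ x : Ix p q, (weight w t * weight w t * (oneD p q x).re - 1) *
      (weight w t * weight w t * (oneD p q x).re - 1) ≤ p * q := fun w =>
    (trace_diag_defect_le (weight_mem w t).1 (weight_mem w t).2).2.1
  have h1 := Finset.sum_le_sum fun a (_ : a ∈ (Finset.univ : Finset (Fin (r₀ q k₀ k₁)))) =>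
    side (.inl a)
  have h2 := Finset.sum_le_sum fun a
    (_ : a ∈ (Finset.univ : Finset (Fin (k₀ * k₁ - r₀ q k₀ k₁ - r₁ p k₀ k₁)))) =>
    ((trace_diag_defect_le (p := p) (q := q) (weight_mem (.inr (.inl a) : Wd p q k₀ k₁) t).1
      (weight_mem (.inr (.inl a) : Wd p q k₀ k₁) t).2).2.2 rfl)
  have h3 := Finset.sum_le_sum fun a (_ : a ∈ (Finset.univ : Finset (Fin (r₁ p k₀ k₁)))) =>
    side (.inr (.inr a))
  simp only [Finset.sum_const, Finset.card_univ, Fintype.card_fin, nsmul_eq_mul] at h1 h2 h3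
  linarith

end Elem

set_option maxHeartbeats 1000000 in
-- the instances of the stages are expensive to unify
/-- Deep stages contain almost central elements of square zero with small defect at every point. -/
theorem exists_central_nilpotent (i : ℕ) (G : Finset (St ℂ (pp i) (qq i))) {ε : ℝ} (hε : 0 < ε) :
    ∃ m, ∃ hm : i ≤ m, ∃ h : St ℂ (pp m) (qq m), ‖h‖ ≤ 1 ∧ h * h = 0 ∧
      (∀ g ∈ G, ‖h * conn hm g - conn hm g * h‖ ≤ ε) ∧
      ∀ t, (∑ x, ((defect h * defect h : St ℂ (pp m) (qq m)) : Amb ℂ (pp m) (qq m)) t x x).re ≤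
        ε * (pp m * qq m) := by
  classical
  obtain ⟨M, hM⟩ : ∃ M, 3 * (3 / 4 : ℝ) ^ M ≤ ε := by
    obtain ⟨M, hM⟩ := exists_pow_lt_of_lt_one (show (0 : ℝ) < ε / 3 by positivity)
      (show (3 / 4 : ℝ) < 1 by norm_num)
    exact ⟨M, by linarith⟩
  obtain ⟨n, -, u, hu⟩ := exists_flow (i + M) (G.image (push ℂ i M)) (half_pos hε)
  have hok := stepOK_pp (i + M + n)
  let h : St ℂ (pp ((i + M + n) + 1)) (qq ((i + M + n) + 1)) := ⟨nilFun u, nilFun_mem hok u⟩
  refine ⟨(i + M + n) + 1, by omega, h, norm_nilFun_le hu.2.1 hok, Subtype.ext (nilFun_mul_self hu.2.1 hok),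
    fun g hg => ?_, fun t => ?_⟩
  · rw [conn_succ (show i ≤ (i + M + n) by omega), ← conn_conn (show i ≤ i + M by omega)
      (show i + M ≤ (i + M + n) by omega), conn_push i M, conn_push (i + M) n]
    refine (norm_comm_nilFun_le (ε := ε / 2) hu.2.1 hok fun t => ?_).trans (le_of_eq (by ring))
    exact hu.2.2 _ ⟨_, Finset.mem_image_of_mem _ hg, rfl⟩ t
  · refine le_trans (le_of_eq ?_) ((trace_defect_le hu.2.1 hok t).trans ?_)
    · exact Complex.re_sum _ _
    have hp : (0 : ℝ) < pp (i + M + n) := Nat.cast_pos.2 (pp_pos (i + M + n))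
    have hq : (0 : ℝ) < qq (i + M + n) := Nat.cast_pos.2 (qq_pos (i + M + n))
    have hk0 : 0 < kl (i + M + n) := by simp [kl]
    have hk1 : 0 < kr (i + M + n) := by simp [kr]
    have hl : (0 : ℝ) < kl (i + M + n) := Nat.cast_pos.2 hk0
    have hr : (0 : ℝ) < kr (i + M + n) := Nat.cast_pos.2 hk1
    have hr0 : (r₀ (qq (i + M + n)) (kl (i + M + n)) (kr (i + M + n)) : ℝ) ≤ kr (i + M + n) * qq (i + M + n) := by
      rw [r₀]; push_cast
      exact mul_le_mul_of_nonneg_left (Nat.cast_le.2 (Nat.mod_lt _ (qq_pos (i + M + n))).le) hr.le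
    have hr1 : (r₁ (pp (i + M + n)) (kl (i + M + n)) (kr (i + M + n)) : ℝ) ≤ kl (i + M + n) * pp (i + M + n) := by
      rw [r₁]; push_cast
      exact mul_le_mul_of_nonneg_left (Nat.cast_le.2 (Nat.mod_lt _ (pp_pos (i + M + n))).le) hl.le
    have hmid : ((kl (i + M + n) * kr (i + M + n) - r₀ (qq (i + M + n)) (kl (i + M + n)) (kr (i + M + n)) - r₁ (pp (i + M + n)) (kl (i + M + n)) (kr (i + M + n)) : ℕ) : ℝ) ≤
        kl (i + M + n) * kr (i + M + n) := by
      rw [← Nat.cast_mul]
      exact Nat.cast_le.2 ((Nat.sub_le _ _).trans (Nat.sub_le _ _))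
    have hpow : (3 / 4 : ℝ) ^ (i + M + n) ≤ (3 / 4) ^ M :=
      pow_le_pow_of_le_one (by norm_num) (by norm_num) (by omega)
    have key := (step_ratio_le (i + M + n)).trans ((mul_le_mul_of_nonneg_left hpow (by norm_num)).trans hM)
    rw [show pp ((i + M + n) + 1) = kl (i + M + n) * pp (i + M + n) from rfl, show qq ((i + M + n) + 1) = kr (i + M + n) * qq (i + M + n) from rfl]
    push_cast
    have key' : ((kr (i + M + n) * qq (i + M + n) : ℝ) + kl (i + M + n) * pp (i + M + n)) * (pp (i + M + n) * qq (i + M + n)) + kl (i + M + n) * kr (i + M + n) * pp (i + M + n) ≤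
        ε * (kl (i + M + n) * pp (i + M + n) * (kr (i + M + n) * qq (i + M + n))) := by
      have e : ((kr (i + M + n) * qq (i + M + n) : ℝ) + kl (i + M + n) * pp (i + M + n)) * (pp (i + M + n) * qq (i + M + n)) + kl (i + M + n) * kr (i + M + n) * pp (i + M + n) =
          ((pp (i + M + n) : ℝ) / kr (i + M + n) + qq (i + M + n) / kl (i + M + n) + 1 / qq (i + M + n)) * (kl (i + M + n) * pp (i + M + n) * (kr (i + M + n) * qq (i + M + n))) := by
        field_simp
        ring
      rw [e]
      exact mul_le_mul_of_nonneg_right key (by positivity)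
    nlinarith [mul_le_mul_of_nonneg_right (add_le_add hr0 hr1)
      (show (0 : ℝ) ≤ pp (i + M + n) * qq (i + M + n) by positivity), mul_le_mul_of_nonneg_right hmid hp.le]

end Vale.Agent.P095.Rel.Z
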