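import Vale.Agent.P095.Rel.Z.Tensor
import Vale.Agent.P095.SI.Trace

/-! P095: cut-downs of an approximate unit with controlled trace norms. -/

open scoped ComplexOrder

namespace Vale.Agent.P095.Rel.Z

open Vale.Agent.P101.Lit

variable {B : Type*} [CStarAlgebra B] [PartialOrder B] [StarOrderedRing B] {A P : Submodule ℂ B}
  {d : B}

/-- The cut-down of a positive element at `μ`. -/
theorem exists_cut_fun (a : B) (ha : 0 ≤ a) {μ : ℝ} (hμ : 0 < μ) :
    ∃ h u : B, IsSelfAdjoint h ∧ u * a * u * a * h = h ∧ ‖a - h‖ ≤ μ := by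
  set φ : ℝ → ℝ := fun t => max (t - μ) 0
  set ψ : ℝ → ℝ := fun t => 1 / max t μ
  have hφc : Continuous φ := by fun_prop
  have hψc : Continuous ψ := continuous_const.div (by fun_prop)
    fun t => (hμ.trans_le (le_max_right t μ)).ne'
  refine ⟨cfc φ a, cfc ψ a, cfc_predicate _ _, ?_, ?_⟩
  · conv_lhs => enter [1, 1, 1, 2]; rw [← cfc_id' ℝ a]
    conv_lhs => enter [1, 2]; rw [← cfc_id' ℝ a]
    rw [← cfc_mul ψ (fun t => t) a hψc.continuousOn continuousOn_id,
      ← cfc_mul (fun t => ψ t * t) ψ a (hψc.mul continuous_id).continuousOn hψc.continuousOn,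
      ← cfc_mul (fun t => ψ t * t * ψ t) (fun t => t) a
        ((hψc.mul continuous_id).mul hψc).continuousOn continuousOn_id,
      ← cfc_mul (fun t => ψ t * t * ψ t * t) φ a
        (((hψc.mul continuous_id).mul hψc).mul continuous_id).continuousOn hφc.continuousOn]
    refine cfc_congr fun t _ => ?_
    rcases le_total t μ with ht | ht
    · simp [φ, ht]
    · have : t ≠ 0 := (hμ.trans_le ht).ne'
      simp only [φ, ψ, max_eq_left ht]
      field_simp
  · conv_lhs => arg 1; arg 1; rw [← cfc_id' ℝ a]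
    rw [← cfc_sub (fun t => t) φ a continuousOn_id hφc.continuousOn]
    refine norm_cfc_le hμ.le fun t ht => ?_
    have h0 := spectrum_nonneg_of_nonneg ha ht
    rcases le_total t μ with ht' | ht'
    · simp [φ, ht', abs_of_nonneg h0]
    · simp [φ, ht', abs_of_nonneg hμ.le]

variable (S : SI.Setup P A d)

/-- The elements whose trace norms are controlled by that of `e`. -/
def controlled (e : B) : Submodule ℂ B where
  carrier := {p | p ∈ P ∧ ∃ C : ℝ, 0 ≤ C ∧
    ∀ τ, SI.IsTraceOn P τ → SI.tn P τ p ≤ C * SI.tn P τ e}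
  add_mem' := by
    rintro p q ⟨hp, C, hC, h⟩ ⟨hq, C', hC', h'⟩
    refine ⟨P.add_mem hp hq, C + C', add_nonneg hC hC', fun τ hτ => ?_⟩
    refine (SI.tn_add_le S.bimod S.star_mem hτ hp hq).trans ?_
    rw [add_mul]
    exact add_le_add (h τ hτ) (h' τ hτ)
  zero_mem' := ⟨P.zero_mem, 0, le_rfl, fun τ hτ => by
    have := SI.tn_smul S.bimod S.star_mem hτ (0 : ℂ) P.zero_mem
    simp only [zero_smul, norm_zero, zero_mul] at this
    rw [this, zero_mul]⟩
  smul_mem' := by
    rintro r p ⟨hp, C, hC, h⟩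
    refine ⟨P.smul_mem r hp, ‖r‖ * C, mul_nonneg (norm_nonneg r) hC, fun τ hτ => ?_⟩
    rw [SI.tn_smul S.bimod S.star_mem hτ r hp, mul_assoc]
    exact mul_le_mul_of_nonneg_left (h τ hτ) (norm_nonneg r)

theorem controlled_bimod {e : B} {b p : B} (h : p ∈ controlled S e) :
    b * p ∈ controlled S e ∧ p * b ∈ controlled S e := by
  obtain ⟨hp, C, hC, h⟩ := h
  refine ⟨⟨(S.bimod b p hp).1, ‖b‖ * C, mul_nonneg (norm_nonneg b) hC, fun τ hτ => ?_⟩,
    ⟨(S.bimod b p hp).2, ‖b‖ * C, mul_nonneg (norm_nonneg b) hC, fun τ hτ => ?_⟩⟩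
  · refine (SI.tn_mul_left S.bimod S.star_mem hτ b hp).trans ?_
    rw [mul_assoc]
    exact mul_le_mul_of_nonneg_left (h τ hτ) (norm_nonneg b)
  · refine (SI.tn_mul_right S.bimod S.star_mem hτ b hp).trans ?_
    rw [mul_assoc, mul_comm]
    exact mul_le_mul_of_nonneg_left (h τ hτ) (norm_nonneg b)

include S in
theorem dense_controlled {e : B} (he : e ∈ P) (he0 : e ≠ 0) {a : B} (ha : a ∈ A) {δ : ℝ}
    (hδ : 0 < δ) : ∃ p ∈ controlled S e, ‖a - p‖ < δ := by
  set J := (controlled S e).topologicalClosure with hJdef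
  have hJA : J ≤ A :=
    Submodule.topologicalClosure_minimal _ (fun p hp => S.le hp.1) S.simple.1
  have hbi : SI.IsBimod J := fun b p hp => by
    rw [hJdef, ← SetLike.mem_coe, Submodule.topologicalClosure_coe] at hp
    rw [hJdef, ← SetLike.mem_coe, Submodule.topologicalClosure_coe, ← SetLike.mem_coe,
      Submodule.topologicalClosure_coe]
    exact ⟨map_mem_closure (f := fun x => b * x) (by fun_prop) hp
        fun q hq => (controlled_bimod S hq).1,
      map_mem_closure (f := fun x => x * b) (by fun_prop) hp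
        fun q hq => (controlled_bimod S hq).2⟩
  have hJ : J = A := by
    refine (S.simple.2.2.2 J hJA (Submodule.isClosed_topologicalClosure _) hbi).resolve_left
      fun h => he0 ?_
    have : e ∈ J := Submodule.le_topologicalClosure _
      ⟨he, 1, zero_le_one, fun τ _ => (one_mul _).ge⟩
    rwa [h, Submodule.mem_bot] at this
  rw [← hJ] at ha
  obtain ⟨p, hp, hpa⟩ := Metric.mem_closure_iff.1
    (show a ∈ _root_.closure (controlled S e : Set B) from ha) δ hδ
  exact ⟨p, hp, by rwa [← dist_eq_norm]⟩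

variable {j : ∀ i, St B (pp i) (qq i) → B} (Z : ZData A j)
include S Z

variable [IsUnitisation A]

omit [IsUnitisation A] in
theorem controlled_of_cut {e : B} (he : e ∈ P) (he0 : e ≠ 0) {a u h : B} (ha : a ∈ A)
    (hu : u ∈ A) (hh : h ∈ A) (hid : u * a * h = h) :
    j 0 (cst B (pp 0) (qq 0) h) ∈ controlled S e := by
  set U' := j 0 (cst B (pp 0) (qq 0) u)
  set a' := j 0 (cst B (pp 0) (qq 0) a)
  set c := j 0 (cst B (pp 0) (qq 0) h)
  have huA : u * a ∈ A := (S.simple.2.1 _ _ ha).1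
  have hc : U' * a' * c = c := by
    have e1 := Z.map_mul 0 _ _ (cst_mem_StI (p := pp 0) (q := qq 0) hu)
      (cst_mem_StI (p := pp 0) (q := qq 0) ha)
    have e2 := Z.map_mul 0 _ _ (cst_mem_StI (p := pp 0) (q := qq 0) huA)
      (cst_mem_StI (p := pp 0) (q := qq 0) hh)
    rw [← map_mul] at e1 e2
    rw [hid] at e2
    simp only [U', a', c]
    exact (congrArg (· * _) e1.symm).trans e2.symm
  obtain ⟨p, hp, hpa⟩ := dense_controlled S he he0 (Z.mem 0 _ (cst_mem_StI ha))
    (show 0 < 1 / (‖U'‖ + 1) by positivity)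
  have hlt : ‖U' * (a' - p)‖ < 1 := by
    refine (norm_mul_le _ _).trans_lt ?_
    calc ‖U'‖ * ‖a' - p‖ ≤ ‖U'‖ * (1 / (‖U'‖ + 1)) :=
          mul_le_mul_of_nonneg_left hpa.le (norm_nonneg _)
      _ < 1 := by rw [mul_one_div, div_lt_one (by positivity)]; linarith
  set v := Units.oneSub _ hlt
  have e1 : (v : B) * c = U' * p * c := by
    rw [Units.val_oneSub, sub_mul, one_mul, mul_sub, sub_mul, hc, sub_sub_cancel]
  have e2 : c = (↑v⁻¹ : B) * (U' * p * c) := by rw [← e1, Units.inv_mul_cancel_left]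
  rw [e2]
  exact (controlled_bimod S (controlled_bimod S (controlled_bimod S hp).1).2).1

/-- A cut-down of an approximate unit with controlled traces, acting almost as a unit on `e`. -/
theorem exists_cut {e : B} (he : e ∈ P) (he0 : e ≠ 0) {η : ℝ} (hη : 0 < η) :
    ∃ h g, h ∈ A ∧ g ∈ A ∧ IsSelfAdjoint h ∧ g * h = h ∧
      j 0 (cst B (pp 0) (qq 0) h) ∈ controlled S e ∧
      ‖j 0 (cst B (pp 0) (qq 0) h) * e - e‖ ≤ η := by
  classical
  obtain ⟨μ, hμ0, hμ⟩ : ∃ μ : ℝ, 0 < μ ∧ μ * (‖e‖ + 6) ≤ η :=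
    ⟨η / (‖e‖ + 6), by positivity, le_of_eq (div_mul_cancel₀ _ (by positivity))⟩
  obtain ⟨L, f, hf, hfe⟩ := Z.dense e (S.le he) μ hμ0
  obtain ⟨N, b, k, hb, hfb⟩ := exists_tensor_approx_StI hf hμ0
  obtain ⟨a, haA, ha0, ha1, hab⟩ := SI.exists_unit_approx S.simple (Finset.univ.image b)
    (fun x hx => by obtain ⟨l, -, rfl⟩ := Finset.mem_image.1 hx; exact hb l)
    (show 0 < μ / (1 + ∑ l, ‖k l‖) by positivity)
  obtain ⟨h, u, hsa, hid, hah⟩ := exists_cut_fun a ha0 hμ0
  have huau : u * a * u ∈ A := (S.simple.2.1 _ _ (S.simple.2.1 _ _ haA).1).2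
  have hg : u * a * u * a ∈ A := (S.simple.2.1 _ _ haA).1
  have hhA : h ∈ A := by rw [← hid]; exact (S.simple.2.1 h _ hg).2
  refine ⟨h, _, hhA, hg, hsa, hid, controlled_of_cut S Z he he0 haA huau hhA hid, ?_⟩
  set a' := j 0 (cst B (pp 0) (qq 0) a) with ha'
  set c := j 0 (cst B (pp 0) (qq 0) h)
  have h1 : ‖a' * j L f - j L f‖ ≤ 3 * μ := by
    have haL : a' = j L (cst B (pp L) (qq L) a) := by
      rw [ha', ← Z.compat 0 L (Nat.zero_le L) _ (cst_mem_StI haA), conn_cst]
    rw [haL, ← Z.map_mul L _ _ (cst_mem_StI haA) hf,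
      Z.norm_sub L _ _ (mul_mem_StI _ hf).1 hf]
    refine norm_mul_sub_self_le ((NonUnitalStarAlgHom.norm_apply_le _ a).trans ha1) hfb ?_
    refine (norm_cst_mul_sum_sub_le L a b k).trans ?_
    refine (Finset.sum_le_sum fun l _ => mul_le_mul_of_nonneg_right
      (hab _ (Finset.mem_image_of_mem b (Finset.mem_univ l))).1.le (norm_nonneg _)).trans ?_
    rw [← Finset.mul_sum, div_mul_eq_mul_div,
      div_le_iff₀ (lt_add_of_pos_of_le one_pos (Finset.sum_nonneg fun l _ => norm_nonneg _))]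
    nlinarith [hμ0]
  have h2 : ‖a' - c‖ ≤ μ := by
    rw [ha', Z.norm_sub 0 _ _ (cst_mem_StI haA) (cst_mem_StI hhA), ← map_sub]
    exact (NonUnitalStarAlgHom.norm_apply_le _ _).trans hah
  have h3 : ‖a'‖ ≤ 1 := by
    rw [ha', Z.norm_map 0 _ (cst_mem_StI haA)]
    exact (NonUnitalStarAlgHom.norm_apply_le _ a).trans ha1
  rw [show c * e - e = a' * (e - j L f) + (a' * j L f - j L f) +
    ((j L f - e) - (a' - c) * e) by noncomm_ring]
  refine (norm_add₃_le).trans ?_
  rw [norm_sub_rev] at hfe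
  have t1 := (norm_mul_le a' (e - j L f)).trans (mul_le_mul h3 hfe.le (norm_nonneg _) zero_le_one)
  have t2 := norm_sub_le (j L f - e) ((a' - c) * e)
  have t3 := (norm_mul_le (a' - c) e).trans (mul_le_mul_of_nonneg_right h2 (norm_nonneg e))
  rw [norm_sub_rev (j L f) e] at t2
  nlinarith [norm_nonneg e]

end Vale.Agent.P095.Rel.Z
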