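import Vale.Agent.P095.Rel.Z.Tensor
import Vale.Agent.P095.Rel.Z.Central
import Vale.Agent.P095.SI.Trace

/-! P095: one term of the central sequence. -/

open scoped ComplexOrder

namespace Vale.Agent.P095.Rel.Z

open Vale.Agent.P101.Lit

variable {B : Type*} [CStarAlgebra B] [PartialOrder B] [StarOrderedRing B] {A P : Submodule ℂ B}
  {d : B} {j : ∀ i, St B (pp i) (qq i) → B} (Z : ZData A j)
include Z

variable [IsUnitisation A]

/-- One term of the central sequence. -/
theorem exists_step (S : SI.Setup P A d) (F : Finset B) (hF : ∀ b ∈ F, b ∈ A) {η : ℝ}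
    (hη : 0 < η) :
    ∃ m, ∃ h : St ℂ (pp m) (qq m), ∃ a ∈ A, IsSelfAdjoint a ∧ ‖a‖ ≤ 1 ∧ ‖h‖ ≤ 1 ∧ h * h = 0 ∧
      (∀ t, (∑ x, ((defect h * defect h : St ℂ (pp m) (qq m)) : Amb ℂ (pp m) (qq m)) t x x).re ≤
        η * (pp m * qq m)) ∧
      ∀ b ∈ F, ‖a * a * b - b‖ ≤ 2 * η ∧
        ‖j m (tensor m a h) * b - b * j m (tensor m a h)‖ ≤ η := by
  classical
  choose L f hf hfb using fun b : {b // b ∈ F} => Z.dense b.1 (hF b.1 b.2) (η / 8) (by positivity)
  set M := F.attach.sup L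
  have hLM : ∀ b, L b ≤ M := fun b => Finset.le_sup (Finset.mem_attach _ b)
  choose N c k hc hfc using fun b : {b // b ∈ F} => exists_tensor_approx_StI
    (conn_mem_StI (hLM b) (hf b)) (show (0 : ℝ) < η / 8 by positivity)
  set W := 1 + ∑ b : {b // b ∈ F}, ∑ l, (‖c b l‖ + 2 * ‖k b l‖) with hW
  have hW0 : 1 ≤ W := le_add_of_nonneg_right
    (Finset.sum_nonneg fun b _ => Finset.sum_nonneg fun l _ => by positivity)
  obtain ⟨ν, hν0, hνη, hνW⟩ : ∃ ν : ℝ, 0 < ν ∧ ν ≤ η ∧ ν * W ≤ η / 4 :=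
    ⟨η / (4 * W), by positivity, div_le_self hη.le (by linarith),
      le_of_eq (by field_simp)⟩
  obtain ⟨m, hm, h, hh1, hh0, hhg, hht⟩ := exists_central_nilpotent M
    (F.attach.biUnion fun b => Finset.univ.image (k b)) hν0
  obtain ⟨a, haA, ha0, ha1, hab⟩ := SI.exists_unit_approx S.simple
    (F ∪ F.attach.biUnion fun b => Finset.univ.image (c b))
    (fun x hx => (Finset.mem_union.1 hx).elim (hF x) fun hx => by
      obtain ⟨b, -, hb⟩ := Finset.mem_biUnion.1 hx
      obtain ⟨l, -, rfl⟩ := Finset.mem_image.1 hb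
      exact hc b l) hν0
  refine ⟨m, h, a, haA, IsSelfAdjoint.of_nonneg ha0, ha1, hh1, hh0,
    fun t => (hht t).trans (mul_le_mul_of_nonneg_right hνη (by positivity)), fun b hb => ⟨?_, ?_⟩⟩
  · obtain ⟨h1, -⟩ := hab b (Finset.mem_union_left _ hb)
    rw [show a * a * b - b = a * (a * b - b) + (a * b - b) by noncomm_ring]
    linarith [norm_add_le (a * (a * b - b)) (a * b - b),
      (norm_mul_le a (a * b - b)).trans (mul_le_of_le_one_left (norm_nonneg _) ha1)]
  set b' : {b // b ∈ F} := ⟨b, hb⟩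
  set g := conn ((hLM b').trans hm) (f b')
  set T := ∑ l, tensor m (c b' l) (conn hm (k b' l))
  have hgA : g ∈ StI A (pp m) (qq m) := conn_mem_StI _ (hf b')
  have hgT : ‖g - T‖ ≤ η / 8 := by
    have e : T = conn hm (∑ l, tensor M (c b' l) (k b' l)) := by
      rw [_root_.map_sum]
      exact Finset.sum_congr rfl fun l _ => (conn_tensor hm _ _).symm
    rw [e, show g = conn hm (conn (hLM b') (f b')) from (conn_conn _ _ _).symm, ← map_sub,
      norm_conn]
    exact hfc b'
  set y := tensor m a h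
  have hy : y ∈ StI A (pp m) (qq m) := tensor_mem haA m h
  have hyn : ‖y‖ ≤ 1 := (norm_tensor_le m a h).trans (mul_le_one₀ ha1 (norm_nonneg _) hh1)
  have hyT : ‖y * T - T * y‖ ≤ η / 4 := by
    refine (norm_tensor_comm_sum_le m a h (c b') fun l => conn hm (k b' l)).trans ?_
    refine (Finset.sum_le_sum (g := fun l => ν * (‖c b' l‖ + 2 * ‖k b' l‖)) fun l _ => ?_).trans ?_
    · have hz : ‖conn hm (k b' l)‖ ≤ ‖k b' l‖ := (norm_conn hm _).le
      obtain ⟨h1, h2⟩ := hab (c b' l) (Finset.mem_union_right _ (Finset.mem_biUnion.2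
        ⟨b', Finset.mem_attach _ _, Finset.mem_image_of_mem _ (Finset.mem_univ l)⟩))
      have h3 : ‖a * c b' l - c b' l * a‖ ≤ 2 * ν := by
        linarith [norm_sub_le_norm_sub_add_norm_sub (a * c b' l) (c b' l) (c b' l * a),
          norm_sub_rev (c b' l) (c b' l * a)]
      have h4 := hhg (k b' l) (Finset.mem_biUnion.2
        ⟨b', Finset.mem_attach _ _, Finset.mem_image_of_mem _ (Finset.mem_univ l)⟩)
      have t1 := mul_le_mul h3
        ((norm_mul_le h (conn hm (k b' l))).trans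
          ((mul_le_of_le_one_left (norm_nonneg _) hh1).trans hz))
        (norm_nonneg _) (by positivity)
      have t2 := mul_le_mul ((norm_mul_le (c b' l) a).trans
        (mul_le_of_le_one_right (norm_nonneg _) ha1)) h4 (norm_nonneg _) (norm_nonneg _)
      linarith
    · rw [← Finset.mul_sum]
      refine (mul_le_mul_of_nonneg_left ?_ hν0.le).trans hνW
      rw [hW]
      linarith [Finset.single_le_sum
        (f := fun b : {b // b ∈ F} => ∑ l, (‖c b l‖ + 2 * ‖k b l‖))
        (fun b _ => Finset.sum_nonneg fun l _ => by positivity) (Finset.mem_univ b')]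
  have h5 : ‖y * g - g * y‖ ≤ η / 2 :=
    (norm_comm_le hyn hgT hyT).trans (by linarith)
  rw [← Z.norm_sub m _ _ (mul_mem_StI y hgA).1 (mul_mem_StI g hy).1, Z.map_mul m _ _ hy hgA,
    Z.map_mul m _ _ hgA hy] at h5
  have hjg : ‖b - j m g‖ ≤ η / 8 := by
    rw [norm_sub_rev, Z.compat _ m _ _ (hf b')]
    exact (hfb b').le
  exact (norm_comm_le ((Z.norm_map m y hy).trans_le hyn) hjg h5).trans (by linarith)

end Vale.Agent.P095.Rel.Z
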