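import Vale.Agent.P101.Lit.Tensor

/-! P095: positive tracial functionals on a scalar stage are bounded by the normalised traces of
the values. -/

open scoped unitInterval ComplexOrder

namespace Vale.Agent.P095.Rel.Z

open Vale.Agent.P101.Lit Vale.Agent.P101.Lit.TensorAux

variable {p q : ℕ}

/-- A tracial functional on matrices is a multiple of the trace. -/
theorem tracial_eq {ι : Type*} [Fintype ι] [DecidableEq ι] (τ : Matrix ι ι ℂ →ₗ[ℂ] ℂ)
    (h : ∀ a b, τ (a * b) = τ (b * a)) (c : Matrix ι ι ℂ) :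
    (Fintype.card ι : ℂ) * τ c = c.trace * τ 1 := by
  have hoff : ∀ i j : ι, i ≠ j → τ (Matrix.single i j (1 : ℂ)) = 0 := fun i j hij => by
    have e := h (Matrix.single i i 1) (Matrix.single i j 1)
    rw [Matrix.single_mul_single_same, Matrix.single_mul_single_of_ne _ _ _ _ (Ne.symm hij)] at e
    simpa using e
  have hdiag : ∀ i j : ι, τ (Matrix.single i i (1 : ℂ)) = τ (Matrix.single j j 1) := fun i j => by
    have e := h (Matrix.single i j 1) (Matrix.single j i 1)
    simpa [Matrix.single_mul_single_same] using e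
  have hone : ∀ i, τ 1 = (Fintype.card ι : ℂ) * τ (Matrix.single i i 1) := fun i => by
    rw [← Matrix.sum_single_one, map_sum, Finset.sum_congr rfl fun j _ => hdiag j i]
    simp [Finset.card_univ]
  conv_lhs => rw [Matrix.matrix_eq_sum_single c]
  simp only [map_sum]
  have hterm : ∀ i j : ι, τ (Matrix.single i j (c i j)) = c i j * τ (Matrix.single i j 1) := by
    intro i j
    rw [← smul_eq_mul, ← map_smul, Matrix.smul_single, smul_eq_mul, mul_one]
  simp only [hterm]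
  rw [Matrix.trace, Finset.sum_mul, Finset.mul_sum]
  refine Finset.sum_congr rfl fun i _ => ?_
  rw [Finset.sum_eq_single i (fun j _ hj => by rw [hoff i j (Ne.symm hj), mul_zero])
    (by simp), hone i, Matrix.diag_apply]
  ring

/-- Block-diagonal matrix with equal blocks along an identification of the indices. -/
def mat {ι ν : Type*} [DecidableEq ν] (e : Ix p q ≃ ι × ν) (c : Matrix ι ι ℂ) :
    Ix p q → Ix p q → ℂ := fun x y => if (e x).2 = (e y).2 then c (e x).1 (e y).1 else 0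

theorem mat_mul {ι ν : Type*} [Fintype ι] [Fintype ν] [DecidableEq ι] [DecidableEq ν]
    (e : Ix p q ≃ ι × ν) (c d : Matrix ι ι ℂ) (x y : Ix p q) :
    ∑ z, mat e c x z * mat e d z y = mat e (c * d) x y := by
  rw [← e.symm.sum_comp, Fintype.sum_prod_type]
  simp only [mat, Equiv.apply_symm_apply, Matrix.mul_apply]
  split_ifs with h
  · refine Finset.sum_congr rfl fun i _ => ?_
    rw [Finset.sum_eq_single (e x).2 (fun w _ hw => by rw [if_neg (Ne.symm hw), zero_mul])
      (by simp)]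
    simp [h]
  · refine Finset.sum_eq_zero fun i _ => Finset.sum_eq_zero fun w _ => ?_
    by_cases h1 : (e x).2 = w
    · subst h1
      rw [if_neg h, mul_zero]
    · rw [if_neg h1, zero_mul]

/-- The value of a positive tracial functional on a function times a block matrix. -/
theorem node_trace (Λ : St ℂ p q →ₗ[ℂ] ℂ) (htr : ∀ a b, Λ (a * b) = Λ (b * a))
    (hpos : ∀ a, 0 ≤ Λ (star a * a)) {ι ν : Type*} [Fintype ι] [Fintype ν] [DecidableEq ι]
    [DecidableEq ν] [Nonempty ι] [Nonempty ν] (e : Ix p q ≃ ι × ν) (φ : C(I, ℝ))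
    (h0 : ∀ t, 0 ≤ φ t)
    (hend : ∀ ψ : C(I, ℝ), (∀ t, φ t = 0 → ψ t = 0) → ∀ c : Matrix ι ι ℂ,
      IsLeftEnd p q (fun x y => (ψ 0 : ℂ) * mat e c x y) ∧
        IsRightEnd p q (fun x y => (ψ 1 : ℂ) * mat e c x y))
    (c : Matrix ι ι ℂ) (z : St ℂ p q) (hz : ∀ t x y, (z : Amb ℂ p q) t x y = φ t * mat e c x y)
    {κ : ℝ} (hc : (∑ x, mat e c x x).re ≤ κ * (p * q)) :
    ∃ d : St ℂ p q, (∀ t x y, (d : Amb ℂ p q) t x y = φ t * if x = y then 1 else 0) ∧
      (Λ z).re ≤ κ * (Λ d).re := by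
  classical
  let ψ : C(I, ℝ) := ⟨fun t => Real.sqrt (φ t), φ.continuous.sqrt⟩
  have hψ : ∀ t, φ t = 0 → ψ t = 0 := fun t ht => by simp [ψ, ht]
  have hψ2 : ∀ t, (ψ t : ℂ) * ψ t = φ t := fun t => by
    rw [← Complex.ofReal_mul]; simp [ψ, Real.mul_self_sqrt (h0 t)]
  let F : Matrix ι ι ℂ →ₗ[ℂ] St ℂ p q :=
    { toFun := fun c => scal φ (mat e c) (hend φ (fun _ h => h) c)
      map_add' := fun a b => Subtype.ext <| ContinuousMap.ext fun t => CStarMatrix.ext fun x y => by
        show (φ t : ℂ) * mat e (a + b) x y = φ t * mat e a x y + φ t * mat e b x y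
        simp only [mat]
        split_ifs <;> simp [mul_add]
      map_smul' := fun r a => Subtype.ext <| ContinuousMap.ext fun t => CStarMatrix.ext fun x y => by
        show (φ t : ℂ) * mat e (r • a) x y = r * (φ t * mat e a x y)
        simp only [mat]
        split_ifs <;> simp [mul_left_comm] }
  let G : Matrix ι ι ℂ → St ℂ p q := fun c => scal ψ (mat e c) (hend ψ hψ c)
  have hG : ∀ a b, G a * G b = F (a * b) := fun a b =>
    Subtype.ext <| ContinuousMap.ext fun t => CStarMatrix.ext fun x y => by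
      show ((G a : Amb ℂ p q) t * (G b : Amb ℂ p q) t) x y = φ t * mat e (a * b) x y
      rw [CStarMatrix.mul_apply, ← mat_mul, ← hψ2, Finset.mul_sum]
      refine Finset.sum_congr rfl fun w _ => ?_
      show (ψ t : ℂ) * mat e a x w * ((ψ t : ℂ) * mat e b w y) = _
      ring
  have hstar : star (G 1) = G 1 :=
    Subtype.ext <| ContinuousMap.ext fun t => CStarMatrix.ext fun x y => by
      show star ((ψ t : ℂ) * mat e 1 y x) = ψ t * mat e 1 x y
      simp only [mat, Matrix.one_apply]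
      by_cases ha : (e x).2 = (e y).2 <;> by_cases hb : (e x).1 = (e y).1 <;>
        simp [ha, hb, Ne.symm]
  have hd : 0 ≤ Λ (F 1) := by
    have := hpos (G 1)
    rwa [hstar, hG, one_mul] at this
  have htrace := tracial_eq (Λ.comp F)
    (fun a b => by
      show Λ (F (a * b)) = Λ (F (b * a))
      rw [← hG, ← hG, htr]) c
  have hzF : z = F c := Subtype.ext <| ContinuousMap.ext fun t => CStarMatrix.ext fun x y => hz t x y
  have hsum : ∑ x, mat e c x x = (Fintype.card ν : ℂ) * c.trace := by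
    rw [← e.symm.sum_comp, Fintype.sum_prod_type]
    simp [mat, Matrix.trace, Finset.mul_sum]
  have hcard : (p : ℝ) * q = Fintype.card ι * Fintype.card ν := by
    have := Fintype.card_congr e
    simp only [Ix, Fintype.card_prod, Fintype.card_fin] at this
    exact_mod_cast this
  refine ⟨F 1, fun t x y => ?_, ?_⟩
  · show (φ t : ℂ) * mat e 1 x y = _
    simp only [mat, Matrix.one_apply, ← ite_and, ← e.injective.eq_iff, Prod.ext_iff]
    congr 1
    exact if_congr and_comm rfl rfl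
  · obtain ⟨hre, him⟩ := Complex.le_def.1 hd
    have hre' : 0 ≤ (Λ (F 1)).re := by simpa using hre
    have him' : (Λ (F 1)).im = 0 := by simpa using him.symm
    have heq := congrArg Complex.re htrace
    simp only [LinearMap.comp_apply, Complex.mul_re, Complex.natCast_re, Complex.natCast_im,
      him', zero_mul, mul_zero, sub_zero] at heq
    rw [hzF]
    rw [hsum, Complex.mul_re, Complex.natCast_re, Complex.natCast_im, zero_mul, sub_zero,
      hcard] at hc
    have hν : (0 : ℝ) < Fintype.card ν := Nat.cast_pos.2 Fintype.card_pos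
    have hι : (0 : ℝ) < Fintype.card ι := Nat.cast_pos.2 Fintype.card_pos
    have hc' : c.trace.re ≤ κ * Fintype.card ι := le_of_mul_le_mul_left (by linarith) hν
    refine le_of_mul_le_mul_left ?_ hι
    rw [heq]
    exact (mul_le_mul_of_nonneg_right hc' hre').trans (le_of_eq (by ring))

/-- A small self-adjoint element has small value. -/
theorem re_le_of_norm_le (Λ : St ℂ p q →ₗ[ℂ] ℂ) (hpos : ∀ a, 0 ≤ Λ (star a * a))
    {a : St ℂ p q} (ha : IsSelfAdjoint a) {ε : ℝ} (hε : ‖a‖ ≤ ε) :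
    (Λ a).re ≤ ε * (Λ 1).re := by
  let y := cfc (fun r : ℝ => Real.sqrt (ε - r)) a
  have hy : star y * y = algebraMap ℝ _ ε - a := by
    rw [(cfc_predicate _ a : IsSelfAdjoint y).star_eq, ← cfc_mul _ _ a, ← cfc_const ε a]
    conv_rhs => arg 2; rw [← cfc_id ℝ a]
    rw [← cfc_sub _ _ a]
    refine cfc_congr fun r hr => Real.mul_self_sqrt (sub_nonneg.2 ?_)
    have h := norm_apply_le_norm_cfc (id : ℝ → ℝ) a hr
    rw [cfc_id ℝ a, id, Real.norm_eq_abs] at h
    exact (le_abs_self r).trans (h.trans hε)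
  have h2 := (Complex.le_def.1 (hy ▸ hpos y)).1
  rw [Algebra.algebraMap_eq_smul_one, map_sub, LinearMap.map_smul_of_tower] at h2
  simpa using h2

/-- A hat function times the value at its node has value at most the trace bound. -/
theorem node_bound (hp : 0 < p) (hq : 0 < q) (Λ : St ℂ p q →ₗ[ℂ] ℂ)
    (htr : ∀ a b, Λ (a * b) = Λ (b * a)) (hpos : ∀ a, 0 ≤ Λ (star a * a)) (k : St ℂ p q) {κ : ℝ}
    {K i : ℕ} (hK : 0 < K) (hi : i ≤ K) (s : I) (hs : (s : ℝ) = i / K)
    (hκ : (∑ x, (k : Amb ℂ p q) s x x).re ≤ κ * (p * q)) :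
    ∃ z d : St ℂ p q,
      (∀ t x y, (z : Amb ℂ p q) t x y = hat K i t * (k : Amb ℂ p q) s x y) ∧
      (∀ t x y, (d : Amb ℂ p q) t x y = hat K i t * if x = y then 1 else 0) ∧
      (Λ z).re ≤ κ * (Λ d).re := by
  classical
  have : Nonempty (Fin p) := ⟨⟨0, hp⟩⟩
  have : Nonempty (Fin q) := ⟨⟨0, hq⟩⟩
  have hnn : ∀ t, 0 ≤ hat K i t := fun t => le_max_left _ _
  rcases eq_or_ne i 0 with rfl | h0
  · have hs0 : s = 0 := Subtype.ext (by simp [hs])
    subst hs0
    obtain ⟨a, ha⟩ := k.2.1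
    let e : Ix p q ≃ Fin p × Fin q := Equiv.refl _
    have hval : ∀ x y, (k : Amb ℂ p q) 0 x y = mat e (Matrix.of a) x y := fun x y => ha x y
    have hend : ∀ ψ : C(I, ℝ), (∀ t, hat K 0 t = 0 → ψ t = 0) →
        ∀ c : Matrix (Fin p) (Fin p) ℂ,
        IsLeftEnd p q (fun x y => (ψ 0 : ℂ) * mat e c x y) ∧
          IsRightEnd p q (fun x y => (ψ 1 : ℂ) * mat e c x y) :=
      fun ψ hψ c => ⟨⟨fun u v => ψ 0 * c u v, fun u v => by
          by_cases h : u.2 = v.2 <;> simp [mat, e, h]⟩,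
        ⟨fun _ _ => 0, fun u v => by simp [hψ 1 (hat_one hK)]⟩⟩
    obtain ⟨d, hd, hle⟩ := node_trace Λ htr hpos e (hat K 0) hnn hend (Matrix.of a)
      (scal (hat K 0) _ (hend _ (fun _ h => h) (Matrix.of a))) (fun _ _ _ => rfl) (κ := κ)
      (by simpa only [hval] using hκ)
    exact ⟨_, d, fun t x y => by rw [hval]; rfl, hd, hle⟩
  rcases eq_or_lt_of_le hi with rfl | hlt
  · have hs1 : s = 1 := Subtype.ext (by simp [hs, h0])
    subst hs1
    obtain ⟨b, hb⟩ := k.2.2
    let e : Ix p q ≃ Fin q × Fin p := Equiv.prodComm _ _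
    have hval : ∀ x y, (k : Amb ℂ p q) 1 x y = mat e (Matrix.of b) x y := fun x y => hb x y
    have hend : ∀ ψ : C(I, ℝ), (∀ t, hat i i t = 0 → ψ t = 0) →
        ∀ c : Matrix (Fin q) (Fin q) ℂ,
        IsLeftEnd p q (fun x y => (ψ 0 : ℂ) * mat e c x y) ∧
          IsRightEnd p q (fun x y => (ψ 1 : ℂ) * mat e c x y) :=
      fun ψ hψ c => ⟨⟨fun _ _ => 0, fun u v => by simp [hψ 0 (hat_zero h0)]⟩,
        ⟨fun u v => ψ 1 * c u v, fun u v => by
          by_cases h : u.1 = v.1 <;> simp [mat, e, h]⟩⟩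
    obtain ⟨d, hd, hle⟩ := node_trace Λ htr hpos e (hat i i) hnn hend (Matrix.of b)
      (scal (hat i i) _ (hend _ (fun _ h => h) (Matrix.of b))) (fun _ _ _ => rfl) (κ := κ)
      (by simpa only [hval] using hκ)
    exact ⟨_, d, fun t x y => by rw [hval]; rfl, hd, hle⟩
  · let e : Ix p q ≃ Ix p q × PUnit.{1} := (Equiv.prodPUnit _).symm
    let M : Matrix (Ix p q) (Ix p q) ℂ := Matrix.of fun x y => (k : Amb ℂ p q) s x y
    have hval : ∀ x y, (k : Amb ℂ p q) s x y = mat e M x y := fun x y => by simp [mat, e, M]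
    have hend : ∀ ψ : C(I, ℝ), (∀ t, hat K i t = 0 → ψ t = 0) →
        ∀ c : Matrix (Ix p q) (Ix p q) ℂ,
        IsLeftEnd p q (fun x y => (ψ 0 : ℂ) * mat e c x y) ∧
          IsRightEnd p q (fun x y => (ψ 1 : ℂ) * mat e c x y) :=
      fun ψ hψ c => ⟨⟨fun _ _ => 0, fun u v => by simp [hψ 0 (hat_zero h0)]⟩,
        ⟨fun _ _ => 0, fun u v => by simp [hψ 1 (hat_one hlt)]⟩⟩
    obtain ⟨d, hd, hle⟩ := node_trace Λ htr hpos e (hat K i) hnn hend M
      (scal (hat K i) _ (hend _ (fun _ h => h) M)) (fun _ _ _ => rfl) (κ := κ)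
      (by simpa only [← hval] using hκ)
    exact ⟨_, d, fun t x y => by rw [hval]; rfl, hd, hle⟩

/-- The partition of unity by hat functions at a point. -/
theorem hat_split {K : ℕ} (t : I) {j : ℕ} (hj : j < K)
    (hoff : ∀ i, i ≠ j → i ≠ j + 1 → hat K i t = 0) (f : Fin (K + 1) → ℂ) :
    ∑ i : Fin (K + 1), (hat K i t : ℂ) * f i =
      hat K j t * f ⟨j, by omega⟩ + hat K (j + 1) t * f ⟨j + 1, by omega⟩ :=
  Finset.sum_eq_add_of_mem (⟨j, by omega⟩ : Fin (K + 1)) ⟨j + 1, by omega⟩ (Finset.mem_univ _)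
    (Finset.mem_univ _) (by simp [Fin.ext_iff]) fun i _ hi => by
      rw [hoff i (fun e => hi.1 (Fin.ext e)) (fun e => hi.2 (Fin.ext e))]; simp

/-- The hat functions add up to one. -/
theorem sum_hat_eq_one {K : ℕ} (hK : 0 < K) (d : Fin (K + 1) → St ℂ p q)
    (hd : ∀ (i : Fin (K + 1)) t x y,
      (d i : Amb ℂ p q) t x y = hat K i t * if x = y then 1 else 0) : ∑ i, d i = 1 :=
  Subtype.ext <| ContinuousMap.ext fun t => CStarMatrix.ext fun x y => by
    obtain ⟨j, hj, hoff, hone, -, -⟩ := hat_sum hK t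
    rw [sum_entry]
    simp only [hd]
    rw [hat_split t hj hoff, ← add_mul, ← Complex.ofReal_add, hone, Complex.ofReal_one, one_mul]
    exact (CStarMatrix.one_apply).symm

/-- Interpolation at the nodes approximates. -/
theorem norm_sub_sum_le {K : ℕ} (hK : 0 < K) (k : St ℂ p q) (node : Fin (K + 1) → I)
    (z : Fin (K + 1) → St ℂ p q)
    (hz : ∀ (i : Fin (K + 1)) t x y,
      (z i : Amb ℂ p q) t x y = hat K i t * (k : Amb ℂ p q) (node i) x y)
    {ε : ℝ} (hε : 0 ≤ ε) (hclose : ∀ (t : I) (i : Fin (K + 1)),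
      |(t : ℝ) - (i : ℕ) / K| ≤ 1 / K → ‖(k : Amb ℂ p q) t - (k : Amb ℂ p q) (node i)‖ ≤ ε) :
    ‖k - ∑ i, z i‖ ≤ ε := by
  show ‖(↑(k - ∑ i, z i) : Amb ℂ p q)‖ ≤ ε
  refine (ContinuousMap.norm_le _ hε).2 fun t => ?_
  obtain ⟨j, hj, hoff, hone, hd0, hd1⟩ := hat_sum hK t
  have hval : (↑(k - ∑ i, z i) : Amb ℂ p q) t
      = (hat K j t : ℂ) • ((k : Amb ℂ p q) t - (k : Amb ℂ p q) (node ⟨j, by omega⟩))
      + (hat K (j + 1) t : ℂ) • ((k : Amb ℂ p q) t - (k : Amb ℂ p q) (node ⟨j + 1, by omega⟩)) := by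
    ext u v
    show (k : Amb ℂ p q) t u v - (↑(∑ i, z i) : Amb ℂ p q) t u v = _
    rw [sum_entry]
    simp only [hz]
    rw [hat_split t hj hoff]
    show _ = (hat K j t : ℂ) * ((k : Amb ℂ p q) t u v - (k : Amb ℂ p q) (node _) u v)
      + (hat K (j + 1) t : ℂ) * ((k : Amb ℂ p q) t u v - (k : Amb ℂ p q) (node _) u v)
    have : (hat K j t : ℂ) + (hat K (j + 1) t : ℂ) = 1 := by exact_mod_cast hone
    linear_combination -((k : Amb ℂ p q) t u v) * this
  rw [hval]
  have a0 : ∀ i, 0 ≤ hat K i t := fun i => le_max_left _ _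
  refine (norm_add_le _ _).trans ?_
  rw [norm_smul, norm_smul, Complex.norm_real, Complex.norm_real,
    Real.norm_of_nonneg (a0 _), Real.norm_of_nonneg (a0 _)]
  refine (add_le_add (mul_le_mul_of_nonneg_left (hclose t ⟨j, by omega⟩ hd0) (a0 _))
    (mul_le_mul_of_nonneg_left (hclose t ⟨j + 1, by omega⟩ hd1) (a0 _))).trans (le_of_eq ?_)
  rw [← add_mul, hone, one_mul]

/-- A positive tracial functional evaluated at a self-adjoint element is at most the supremum of
the normalised pointwise traces times its value at `1`. -/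
theorem re_trace_functional_le {p q : ℕ} (hp : 0 < p) (hq : 0 < q)
    (Λ : St ℂ p q →ₗ[ℂ] ℂ) (htr : ∀ a b, Λ (a * b) = Λ (b * a))
    (hpos : ∀ a, 0 ≤ Λ (star a * a)) {k : St ℂ p q} (hk : IsSelfAdjoint k) {κ : ℝ}
    (hκ : ∀ t, (∑ x, (k : Amb ℂ p q) t x x).re ≤ κ * (p * q)) :
    (Λ k).re ≤ κ * (Λ 1).re := by
  have hL1 : 0 ≤ (Λ 1).re := by
    have := (Complex.le_def.1 (hpos 1)).1
    simpa using this
  refine le_of_forall_pos_le_add fun η hη => ?_
  obtain ⟨ε, hε, hεη⟩ : ∃ ε : ℝ, 0 < ε ∧ ε * (Λ 1).re ≤ η :=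
    ⟨η / ((Λ 1).re + 1), by positivity, by
      rw [div_mul_eq_mul_div, div_le_iff₀ (by positivity)]; nlinarith⟩
  obtain ⟨δ, hδ, hu⟩ := Metric.uniformContinuous_iff.1
    (CompactSpace.uniformContinuous_of_continuous (k : Amb ℂ p q).continuous) ε hε
  obtain ⟨K', hK'⟩ := exists_nat_one_div_lt hδ
  obtain ⟨K, hK, hKδ⟩ : ∃ K : ℕ, 0 < K ∧ 1 / (K : ℝ) < δ :=
    ⟨K' + 1, Nat.succ_pos _, by push_cast; exact hK'⟩
  obtain ⟨node, hnode⟩ : ∃ node : Fin (K + 1) → I, ∀ i, (node i : ℝ) = (i : ℕ) / K :=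
    ⟨fun i => ⟨(i : ℕ) / K, by positivity,
      (div_le_one (Nat.cast_pos.2 hK)).2 (by exact_mod_cast Nat.lt_succ_iff.1 i.2)⟩, fun _ => rfl⟩
  choose z d hz hd hle using fun i : Fin (K + 1) =>
    node_bound hp hq Λ htr hpos k hK (Nat.lt_succ_iff.1 i.2) (node i) (hnode i) (hκ (node i))
  have hzs : IsSelfAdjoint (∑ i, z i) := by
    refine isSelfAdjoint_sum _ fun i _ => ?_
    refine Subtype.ext <| ContinuousMap.ext fun t => CStarMatrix.ext fun x y => ?_
    show star ((z i : Amb ℂ p q) t y x) = (z i : Amb ℂ p q) t x y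
    have hherm : star ((k : Amb ℂ p q) (node i) y x) = (k : Amb ℂ p q) (node i) x y :=
      congrArg (fun f : St ℂ p q => (f : Amb ℂ p q) (node i) x y) hk.star_eq
    rw [hz, hz, star_mul', hherm, Complex.star_def, Complex.conj_ofReal]
  have hn : ‖k - ∑ i, z i‖ ≤ ε := norm_sub_sum_le hK k node z hz hε.le fun t i h => by
    rw [← dist_eq_norm]
    refine (hu ?_).le
    rw [Subtype.dist_eq, Real.dist_eq, hnode i]
    exact h.trans_lt hKδ
  have h1 := re_le_of_norm_le Λ hpos (hk.sub hzs) hn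
  rw [map_sub, Complex.sub_re] at h1
  have h2 : (Λ (∑ i, z i)).re ≤ κ * (Λ 1).re := by
    rw [← sum_hat_eq_one hK d hd, map_sum, map_sum, Complex.re_sum, Complex.re_sum, Finset.mul_sum]
    exact Finset.sum_le_sum fun i _ => hle i
  linarith

end Vale.Agent.P095.Rel.Z
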