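import Vale.Agent.P095.Rel.Z.Cut
import Vale.Agent.P095.Rel.Z.Step
import Vale.Agent.P095.Rel.Z.TraceBound

/-! P095: a `Z`-stable simple algebra is tracially McDuff on each of its trace ideals. -/

open Filter Topology
open scoped ComplexOrder

namespace Vale.Agent.P095.Rel.Z

open Vale.Agent.P101.Lit

variable {B : Type*} [CStarAlgebra B] [PartialOrder B] [StarOrderedRing B] {A P : Submodule ℂ B}
  {d : B} {j : ∀ i, St B (pp i) (qq i) → B} (Z : ZData A j)
include Z

variable [IsUnitisation A]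

/-- The 2-norm of a cut-down tensor is bounded by the normalised traces of the scalar part. -/
theorem tn_tensor_le (S : SI.Setup P A d) {h g : B} (hh : h ∈ A) (hg : g ∈ A)
    (hsa : IsSelfAdjoint h) (hgh : g * h = h) (hc : j 0 (cst B (pp 0) (qq 0) h) ∈ P) (m : ℕ)
    {D : St ℂ (pp m) (qq m)} (hD : IsSelfAdjoint D) {κ : ℝ}
    (hκ : ∀ t, (∑ x, ((D * D : St ℂ (pp m) (qq m)) : Amb ℂ (pp m) (qq m)) t x x).re ≤
      κ * (pp m * qq m)) {τ : P →ₗ[ℂ] ℂ} (hτ : SI.IsTraceOn P τ) :
    SI.tn P τ (j m (tensor m h D)) * SI.tn P τ (j m (tensor m h D)) ≤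
      κ * (SI.tn P τ (j 0 (cst B (pp 0) (qq 0) h)) * SI.tn P τ (j 0 (cst B (pp 0) (qq 0) h))) := by
  set c := j 0 (cst B (pp 0) (qq 0) h) with hcdef
  have hc' : c = j m (tensor m h 1) := by
    rw [tensor_one, hcdef, ← Z.compat 0 m (Nat.zero_le m) _ (cst_mem_StI hh), conn_cst]
  have hz : ∀ K, j m (tensor m h K) ∈ P := fun K => by
    have e : j m (tensor m h K) = j m (tensor m g K) * c := by
      rw [hc', ← Z.map_mul m _ _ (tensor_mem hg m K) (tensor_mem hh m 1), tensor_mul, hgh, mul_one]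
    rw [e]
    exact (S.bimod _ _ hc).1
  have hstar : ∀ K, star (j m (tensor m h K)) = j m (tensor m h (star K)) := fun K => by
    rw [← Z.map_star m _ (tensor_mem hh m K), star_tensor, hsa.star_eq]
  have hmul : ∀ K K', j m (tensor m h K) * j m (tensor m h K') =
      star c * j m (tensor m h (K * K')) := fun K K' => by
    rw [hc', hstar, star_one, ← Z.map_mul m _ _ (tensor_mem hh m K) (tensor_mem hh m K'),
      ← Z.map_mul m _ _ (tensor_mem hh m 1) (tensor_mem hh m _), tensor_mul, tensor_mul, one_mul]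
  let Λ : St ℂ (pp m) (qq m) →ₗ[ℂ] ℂ :=
    { toFun := fun K => SI.tip P τ c (j m (tensor m h K))
      map_add' := fun K K' => by
        rw [← SI.tip_add_right S.bimod S.star_mem hτ (hz K) (hz K'),
          ← Z.map_add m _ _ (tensor_mem hh m K) (tensor_mem hh m K')]
        rw [tensor_add_right]
      map_smul' := fun r K => by
        rw [RingHom.id_apply, smul_eq_mul, ← SI.tip_smul_right S.bimod S.star_mem hτ r (hz K),
          ← Z.map_smul m r _ (tensor_mem hh m K)]
        rw [tensor_smul_right] }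
  have hΛmul : ∀ K K', Λ (K * K') = SI.tip P τ (star (j m (tensor m h K))) (j m (tensor m h K')) :=
    fun K K' => by
      show SI.tip P τ c _ = _
      rw [SI.tip_eq (S.bimod (star c) _ (hz _)).1,
        SI.tip_eq (S.bimod (star (star _)) _ (hz _)).1]
      exact congrArg τ (Subtype.ext (by rw [star_star]; exact (hmul K K').symm))
  have htr : ∀ K K', Λ (K * K') = Λ (K' * K) := fun K K' => by
    rw [hΛmul, hΛmul, SI.tip_eq (S.bimod (star (star _)) _ (hz _)).1,
      SI.tip_eq (S.bimod (star (star _)) _ (hz _)).1]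
    refine (congrArg τ (Subtype.ext (by rw [star_star]))).trans ((hτ.1 ⟨_, hz K⟩
      (j m (tensor m h K')) (S.bimod _ _ (hz K)).2 (S.bimod _ _ (hz K)).1).trans ?_)
    exact congrArg τ (Subtype.ext (by rw [star_star]))
  have hpos : ∀ K, 0 ≤ Λ (star K * K) := fun K => by
    rw [hΛmul, hstar, star_star]
    exact SI.tip_self_nonneg S.bimod S.star_mem hτ (hz K)
  have key := re_trace_functional_le (pp_pos m) (qq_pos m) Λ htr hpos (k := D * D)
    (hD.commute_iff hD |>.1 (Commute.refl D)) hκ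
  rw [hΛmul, hstar, hD.star_eq] at key
  rw [SI.tn_mul_self S.bimod S.star_mem hτ (hz D), SI.tn_mul_self S.bimod S.star_mem hτ hc]
  refine key.trans_eq ?_
  show κ * (SI.tip P τ c (j m (tensor m h 1))).re = _
  rw [← hc']

variable [TopologicalSpace.SeparableSpace B]

/-- A `Z`-stable simple algebra is tracially McDuff on its trace ideals. -/
theorem isMcDuff_of_zData (S : SI.Setup P A d) : SI.IsMcDuff P := by
  classical
  have : Nontrivial B := S.d_nondeg.elim fun z hz => ⟨⟨z, 0, hz.1⟩⟩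
  have : Nonempty (A : Set B) := ⟨⟨0, A.zero_mem⟩⟩
  obtain ⟨ds, hds⟩ := TopologicalSpace.exists_dense_seq (A : Set B)
  choose m h a haA hasa ha1 hh1 hh0 hht hF using fun n : ℕ =>
    exists_step Z S ((Finset.range (n + 1)).image fun i => (ds i : B))
      (fun b hb => by obtain ⟨i, -, rfl⟩ := Finset.mem_image.1 hb; exact (ds i).2)
      (Nat.one_div_pos_of_nat (α := ℝ) (n := n))
  let x : ℕ → B := fun n => j (m n) (tensor (m n) (a n) (h n))
  have hymem : ∀ n, tensor (m n) (a n) (h n) ∈ StI A (pp (m n)) (qq (m n)) := fun n =>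
    tensor_mem (haA n) _ _
  have hx1 : ∀ n, ‖x n‖ ≤ 1 := fun n => (Z.norm_map _ _ (hymem n)).trans_le
    ((norm_tensor_le _ _ _).trans (mul_le_one₀ (ha1 n) (norm_nonneg _) (hh1 n)))
  have hlim : Tendsto (fun n : ℕ => (1 : ℝ) / (n + 1)) atTop (𝓝 0) :=
    tendsto_one_div_add_atTop_nhds_zero_nat
  -- estimates on all of `A`
  have hall : ∀ b ∈ A, Tendsto (fun n => ‖x n * b - b * x n‖) atTop (𝓝 0) ∧
      Tendsto (fun n => ‖a n * a n * b - b‖) atTop (𝓝 0) := fun b hb => by
    have key : ∀ ε > (0 : ℝ), ∀ᶠ n in atTop,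
        ‖x n * b - b * x n‖ < ε ∧ ‖a n * a n * b - b‖ < ε := fun ε hε => by
      obtain ⟨i, hi⟩ : ∃ i, ‖b - (ds i : B)‖ < ε / 4 := by
        obtain ⟨_, ⟨i, rfl⟩, hi⟩ := Metric.mem_closure_iff.1 (hds ⟨b, hb⟩) (ε / 4) (by positivity)
        exact ⟨i, by rw [← dist_eq_norm]; exact hi⟩
      filter_upwards [eventually_ge_atTop i,
        hlim.eventually (gt_mem_nhds (show (0 : ℝ) < ε / 8 by positivity))] with n hn hn'
      obtain ⟨h1, h2⟩ := hF n _ (Finset.mem_image.2 ⟨i, Finset.mem_range.2 (by omega), rfl⟩)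
      change ‖x n * (ds i : B) - (ds i : B) * x n‖ ≤ _ at h2
      set b' := (ds i : B)
      have haa : ‖a n * a n‖ ≤ 1 :=
        (norm_mul_le _ _).trans (mul_le_one₀ (ha1 n) (norm_nonneg _) (ha1 n))
      constructor
      · rw [show x n * b - b * x n =
          x n * (b - b') + (x n * b' - b' * x n) - (b - b') * x n by noncomm_ring]
        linarith [norm_sub_le (x n * (b - b') + (x n * b' - b' * x n)) ((b - b') * x n),
          norm_add_le (x n * (b - b')) (x n * b' - b' * x n),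
          (norm_mul_le (x n) (b - b')).trans (mul_le_of_le_one_left (norm_nonneg _) (hx1 n)),
          (norm_mul_le (b - b') (x n)).trans (mul_le_of_le_one_right (norm_nonneg _) (hx1 n))]
      · rw [show a n * a n * b - b =
          a n * a n * (b - b') + (a n * a n * b' - b') + (b' - b) by noncomm_ring]
        linarith [norm_add₃_le (a := a n * a n * (b - b')) (b := a n * a n * b' - b')
            (c := b' - b), norm_sub_rev b' b,
          (norm_mul_le (a n * a n) (b - b')).trans (mul_le_of_le_one_left (norm_nonneg _) haa)]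
    constructor <;> refine Metric.tendsto_nhds.2 fun ε hε => (key ε hε).mono fun n hn => ?_ <;>
      rw [dist_zero_right, norm_norm]
    · exact hn.1
    · exact hn.2
  refine fun D _ hD => ⟨x, ⟨1, hx1⟩, fun b => ?_, fun e he ε hε => ?_⟩
  · obtain ⟨r, hr⟩ := IsUnitisation.span (A := A) b
    refine ((hall _ hr).1).congr fun n => ?_
    rw [mul_sub, sub_mul, mul_smul_comm, smul_mul_assoc, mul_one, one_mul, sub_sub_sub_cancel_right]
  have heP := (hD e he).1
  have hxx : ∀ n, x n * x n = 0 := fun n => by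
    simp only [x]
    rw [← Z.map_mul _ _ _ (hymem n) (hymem n), tensor_mul, hh0, tensor_zero_right, Z.map_zero]
  have h0 : ∀ τ, SI.IsTraceOn P τ → SI.tn P τ (0 : B) = 0 := fun τ hτ => by
    have := SI.tn_smul S.bimod S.star_mem hτ (0 : ℂ) P.zero_mem
    simpa using this
  rcases eq_or_ne e 0 with rfl | he0
  · exact Eventually.of_forall fun n τ hτ _ => by simp [h0 τ hτ, hε]
  obtain ⟨η, hη0, hη⟩ : ∃ η : ℝ, 0 < η ∧ 5 * η ≤ ε / 2 := ⟨ε / 10, by positivity, by linarith⟩
  obtain ⟨hcut, g, hcA, hgA, hcsa, hgc, ⟨hcP, C, hC, hCb⟩, hce⟩ := exists_cut S Z heP he0 hη0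
  have ev := ((hall _ hcA).2.eventually (gt_mem_nhds
      (show (0 : ℝ) < η / (2 * (‖e‖ + 1)) by positivity))).and
    (hlim.eventually (gt_mem_nhds (show (0 : ℝ) < (ε / (4 * ((C + 1) * (‖e‖ * ‖e‖ + 1)))) ^ 2 by
      positivity)))
  filter_upwards [ev] with n hn τ hτ hle
  obtain ⟨hn1, hn2⟩ := hn
  refine ⟨by rw [hxx n, zero_mul, h0 τ hτ]; exact hε, ?_⟩
  set c := j 0 (cst B (pp 0) (qq 0) hcut)
  set H := star (h n) * h n + h n * star (h n)
  set q := star (x n) * x n + x n * star (x n) - 1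
  set z := j (m n) (tensor (m n) hcut (H - 1))
  have hq : ‖q‖ ≤ 3 := norm_defect_le (hx1 n)
  have hxH : star (x n) * x n + x n * star (x n) = j (m n) (tensor (m n) (a n * a n) H) := by
    simp only [x]
    rw [← Z.map_star _ _ (hymem n), star_tensor, (hasa n).star_eq,
      ← Z.map_mul _ _ _ (tensor_mem (haA n) _ _) (hymem n),
      ← Z.map_mul _ _ _ (hymem n) (tensor_mem (haA n) _ _), tensor_mul, tensor_mul,
      ← Z.map_add _ _ _ (tensor_mem ((S.simple.2.1 _ _ (haA n)).1) _ _)
        (tensor_mem ((S.simple.2.1 _ _ (haA n)).1) _ _)]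
    rw [← tensor_add_right]
  have hc' : c = j (m n) (tensor (m n) hcut 1) := by
    rw [tensor_one, ← conn_cst (Nat.zero_le (m n)), Z.compat _ _ _ _ (cst_mem_StI hcA)]
  have hH : ‖H‖ ≤ 2 := by
    linarith [norm_add_le (star (h n) * h n) (h n * star (h n)),
      (norm_mul_le (star (h n)) (h n)).trans
        (mul_le_one₀ ((norm_star _).trans_le (hh1 n)) (norm_nonneg _) (hh1 n)),
      (norm_mul_le (h n) (star (h n))).trans
        (mul_le_one₀ (hh1 n) (norm_nonneg _) ((norm_star _).trans_le (hh1 n)))]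
  have haaA : a n * a n * hcut ∈ A := (S.simple.2.1 _ _ hcA).1
  have hqc : ‖q * c - z‖ ≤ η / (‖e‖ + 1) := by
    have e1 : q * c - z = j (m n) (tensor (m n) (a n * a n * hcut - hcut) H) := by
      simp only [q, z]
      rw [hxH, sub_mul, one_mul, hc',
        ← Z.map_mul _ _ _ (tensor_mem ((S.simple.2.1 _ _ (haA n)).1) _ _) (tensor_mem hcA _ _),
        tensor_mul, mul_one,
        ← Z.map_sub _ _ _ (tensor_mem haaA _ _) (tensor_mem hcA _ _),
        ← Z.map_sub _ _ _ (Submodule.sub_mem (StI A (pp (m n)) (qq (m n))) (tensor_mem haaA _ _) (tensor_mem hcA _ _))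
          (tensor_mem hcA _ _)]
      congr 1
      rw [tensor_sub_right, tensor_sub_left]
      abel
    rw [e1, Z.norm_map _ _ (tensor_mem (A.sub_mem haaA hcA) _ _)]
    refine (norm_tensor_le _ _ _).trans ((mul_le_mul hn1.le hH (norm_nonneg _) (by positivity)).trans
      (le_of_eq ?_))
    field_simp
  have hzP : z ∈ P := by
    have e2 : z = j (m n) (tensor (m n) g (H - 1)) * c := by
      rw [hc', ← Z.map_mul _ _ _ (tensor_mem hgA _ _) (tensor_mem hcA _ _), tensor_mul, hgc,
        mul_one]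
    rw [e2]
    exact (S.bimod _ _ hcP).1
  have hzn : SI.tn P τ z * SI.tn P τ z ≤ 1 / (n + 1) * (C * C) := by
    refine (tn_tensor_le Z S hcA hgA hcsa hgc hcP (m n)
      (show IsSelfAdjoint (H - 1) by
        simp [H, isSelfAdjoint_iff]) (hht n) hτ).trans ?_
    have hcle : SI.tn P τ c ≤ C := (hCb τ hτ).trans (mul_le_of_le_one_right hC hle)
    exact mul_le_mul_of_nonneg_left (mul_le_mul hcle hcle (SI.tn_nonneg _) hC) (by positivity)
  have hzle : SI.tn P τ z * (‖e‖ * ‖e‖) ≤ ε / 4 := by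
    obtain ⟨r, hr⟩ : ∃ r, r = ε / (4 * ((C + 1) * (‖e‖ * ‖e‖ + 1))) := ⟨_, rfl⟩
    rw [← hr] at hn2
    have hr0 : 0 ≤ r := by rw [hr]; positivity
    have hz1 : SI.tn P τ z ≤ r * (C + 1) := by
      refine abs_le_of_sq_le_sq' ?_ (by positivity) |>.2
      rw [sq, sq]
      calc SI.tn P τ z * SI.tn P τ z ≤ 1 / ((n : ℝ) + 1) * (C * C) := hzn
        _ ≤ r ^ 2 * ((C + 1) * (C + 1)) := by
            gcongr <;> linarith
        _ = r * (C + 1) * (r * (C + 1)) := by ring
    calc SI.tn P τ z * (‖e‖ * ‖e‖) ≤ r * (C + 1) * (‖e‖ * ‖e‖ + 1) :=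
          mul_le_mul hz1 (le_add_of_nonneg_right zero_le_one) (by positivity) (by positivity)
      _ = ε / 4 := by rw [hr]; field_simp
  have e3 : q * (e * e) = (q * (e - c * e) + (q * c - z) * e) * e + z * (e * e) := by noncomm_ring
  rw [e3]
  refine (SI.tn_add_le S.bimod S.star_mem hτ (S.bimod _ _ heP).1 (S.bimod _ _ hzP).2).trans_lt ?_
  have t1 := (SI.tn_mul_left S.bimod S.star_mem hτ (q * (e - c * e) + (q * c - z) * e) heP).trans
    (mul_le_of_le_one_right (norm_nonneg _) hle)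
  have t2 : ‖q * (e - c * e) + (q * c - z) * e‖ ≤ 5 * η := by
    rw [norm_sub_rev] at hce
    have u1 := (norm_mul_le q (e - c * e)).trans (mul_le_mul hq hce (norm_nonneg _) (by norm_num))
    have u2 := (norm_mul_le (q * c - z) e).trans (mul_le_mul_of_nonneg_right hqc (norm_nonneg e))
    have u3 : η / (‖e‖ + 1) * ‖e‖ ≤ η := by
      rw [div_mul_eq_mul_div, div_le_iff₀ (by positivity)]; nlinarith [norm_nonneg e]
    linarith [norm_add_le (q * (e - c * e)) ((q * c - z) * e)]
  have t3 := (SI.tn_mul_right S.bimod S.star_mem hτ (e * e) hzP).trans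
    (mul_le_mul_of_nonneg_left (norm_mul_le e e) (SI.tn_nonneg _))
  linarith

end Vale.Agent.P095.Rel.Z
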