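import Vale.Agent.P095.Rel.Plain

/-! P095: plain `Z`-stability of the ideal `A`, written with entries only. -/

open scoped unitInterval ComplexOrder

namespace Vale.Agent.P095.Rel

open Vale.Agent.P101.Lit

variable {B : Type*} [CStarAlgebra B] [PartialOrder B] [StarOrderedRing B] (A : Submodule ℂ B)

/-- `A` is isomorphic to the limit of the stages `A ⊗ I(pp i, qq i)`: compatible isometric
homomorphisms of the stages onto a dense part of `A`. -/
def IsZStableOn : Prop :=
  ∃ j : ∀ i, Amb B (pp i) (qq i) → B,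
    (∀ i, IsIdealEmbedding A (j i)) ∧
    (∀ i f, InStOn A f → InStOn A (step (kl i) (kr i) f) ∧
      j (i + 1) (step (kl i) (kr i) f) = j i f) ∧
    ∀ a ∈ A, ∀ r : ℝ, 0 < r → ∃ i f, InStOn A f ∧ ‖j i f - a‖ < r

end Vale.Agent.P095.Rel
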