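import Vale.Agent.P095.Rel.Z.Plain
import Vale.Agent.P095.Rel.Stage

/-! P095: the maps of a `Z`-stability and elementary tensors in the stages. -/

open scoped ComplexOrder

namespace Vale.Agent.P095.Rel.Z

open Vale.Agent.P101.Lit

section Generic

variable {R : Type*} [NormedRing R]

theorem norm_mul_sub_self_le {a f T : R} {μ : ℝ} (ha : ‖a‖ ≤ 1) (hf : ‖f - T‖ ≤ μ)
    (hT : ‖a * T - T‖ ≤ μ) : ‖a * f - f‖ ≤ 3 * μ := by
  rw [show a * f - f = a * (f - T) + (a * T - T) + (T - f) by noncomm_ring]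
  refine norm_add₃_le.trans ?_
  rw [norm_sub_rev T f]
  linarith [(norm_mul_le a (f - T)).trans (mul_le_mul ha hf (norm_nonneg _) zero_le_one)]

theorem norm_comm_le {y g T : R} {δ ρ : ℝ} (hy : ‖y‖ ≤ 1) (hg : ‖g - T‖ ≤ δ)
    (hT : ‖y * T - T * y‖ ≤ ρ) : ‖y * g - g * y‖ ≤ ρ + 2 * δ := by
  rw [show y * g - g * y = y * (g - T) + (y * T - T * y) - (g - T) * y by noncomm_ring]
  linarith [norm_sub_le (y * (g - T) + (y * T - T * y)) ((g - T) * y),
    norm_add_le (y * (g - T)) (y * T - T * y),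
    (norm_mul_le y (g - T)).trans (mul_le_mul hy hg (norm_nonneg _) zero_le_one),
    (norm_mul_le (g - T) y).trans
      (mul_le_mul hg hy (norm_nonneg _) ((norm_nonneg _).trans hg))]

theorem norm_defect_le {x : R} [StarRing R] [NormedStarGroup R] [NormOneClass R]
    (hx : ‖x‖ ≤ 1) : ‖star x * x + x * star x - 1‖ ≤ 3 := by
  linarith [norm_sub_le (star x * x + x * star x) 1, norm_add_le (star x * x) (x * star x),
    norm_one (α := R),
    (norm_mul_le (star x) x).trans
      (mul_le_one₀ ((norm_star _).trans_le hx) (norm_nonneg _) hx),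
    (norm_mul_le x (star x)).trans
      (mul_le_one₀ hx (norm_nonneg _) ((norm_star _).trans_le hx))]

end Generic

variable {B : Type*} [CStarAlgebra B] [PartialOrder B] [StarOrderedRing B] {A : Submodule ℂ B}

/-- The maps of a `Z`-stability, bundled on the stages. -/
structure ZData (A : Submodule ℂ B) (j : ∀ i, St B (pp i) (qq i) → B) : Prop where
  mem : ∀ i f, f ∈ StI A (pp i) (qq i) → j i f ∈ A
  norm_map : ∀ i f, f ∈ StI A (pp i) (qq i) → ‖j i f‖ = ‖f‖
  map_add : ∀ i f g, f ∈ StI A (pp i) (qq i) → g ∈ StI A (pp i) (qq i) →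
    j i (f + g) = j i f + j i g
  map_mul : ∀ i f g, f ∈ StI A (pp i) (qq i) → g ∈ StI A (pp i) (qq i) →
    j i (f * g) = j i f * j i g
  map_smul : ∀ i (r : ℂ) f, f ∈ StI A (pp i) (qq i) → j i (r • f) = r • j i f
  map_star : ∀ i f, f ∈ StI A (pp i) (qq i) → j i (star f) = star (j i f)
  compat : ∀ (i l : ℕ) (h : i ≤ l) f, f ∈ StI A (pp i) (qq i) → j l (conn h f) = j i f
  dense : ∀ a ∈ A, ∀ r : ℝ, 0 < r → ∃ i f, f ∈ StI A (pp i) (qq i) ∧ ‖j i f - a‖ < r

theorem exists_zData [IsUnitisation A] (h : IsZStableOn A) : ∃ j, ZData A j := by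
  obtain ⟨J, hJ, hc, hd⟩ := h
  have hin : ∀ i (f : St B (pp i) (qq i)), f ∈ StI A (pp i) (qq i) → InStOn A f.1 :=
    fun i f hf => ⟨f.2, hf⟩
  refine ⟨fun i f => J i f.1, fun i f hf => ((hJ i).2.2 _ (hin i f hf)).1,
    fun i f hf => ((hJ i).2.2 _ (hin i f hf)).2,
    fun i f g hf hg => ((hJ i).1 _ _ _ (hin i f hf) (hin i g hg)
      (hin i _ (Submodule.add_mem _ hf hg))).1 fun t x y => rfl,
    fun i f g hf hg => ((hJ i).1 _ _ _ (hin i f hf) (hin i g hg)
      (hin i _ (mul_mem_StI f hg).1)).2 fun t x y => CStarMatrix.mul_apply,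
    fun i r f hf => ((hJ i).2.1 r _ _ (hin i f hf) (hin i _ (Submodule.smul_mem _ r hf))).1
      fun t x y => rfl,
    fun i f hf => ((hJ i).2.1 1 _ _ (hin i f hf) (hin i _ (star_mem_StI hf))).2 fun t x y => rfl,
    fun i l h f hf => ?_, fun a ha r hr => ?_⟩
  · obtain ⟨n, rfl⟩ := Nat.exists_eq_add_of_le h
    rw [conn_push]
    induction n with
    | zero => rfl
    | succ n ih =>
      rw [← ih (Nat.le_add_right i n), push_succ]
      exact (hc (i + n) _ (hin _ _ (push_mem_StI n hf))).2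
  · obtain ⟨i, f, hf, hfa⟩ := hd a ha r hr
    exact ⟨i, ⟨f, hf.1⟩, hf.2, hfa⟩

variable {j : ∀ i, St B (pp i) (qq i) → B} (Z : ZData A j)
include Z

theorem ZData.map_zero (i : ℕ) : j i 0 = 0 := by
  have := Z.map_smul i 0 0 (Submodule.zero_mem _)
  rwa [zero_smul, zero_smul] at this

theorem ZData.map_sub (i : ℕ) (f g : St B (pp i) (qq i)) (hf : f ∈ StI A (pp i) (qq i))
    (hg : g ∈ StI A (pp i) (qq i)) : j i (f - g) = j i f - j i g := by
  rw [eq_sub_iff_add_eq, ← Z.map_add i _ _ (Submodule.sub_mem _ hf hg) hg, sub_add_cancel]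

theorem ZData.norm_sub (i : ℕ) (f g : St B (pp i) (qq i)) (hf : f ∈ StI A (pp i) (qq i))
    (hg : g ∈ StI A (pp i) (qq i)) : ‖j i f - j i g‖ = ‖f - g‖ := by
  rw [← Z.map_sub i f g hf hg, Z.norm_map i _ (Submodule.sub_mem _ hf hg)]

variable [IsUnitisation A]

omit Z in
/-- An elementary tensor. -/
noncomputable def tensor (i : ℕ) (a : B) (g : St ℂ (pp i) (qq i)) : St B (pp i) (qq i) :=
  cst B _ _ a * lift B _ _ g

omit Z in
theorem tensor_mem {a : B} (ha : a ∈ A) (i : ℕ) (g : St ℂ (pp i) (qq i)) :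
    tensor i a g ∈ StI A (pp i) (qq i) := (mul_mem_StI _ (cst_mem_StI ha)).2

omit Z [IsUnitisation A] in
theorem tensor_mul (i : ℕ) (a b : B) (g h : St ℂ (pp i) (qq i)) :
    tensor i a g * tensor i b h = tensor i (a * b) (g * h) := by
  rw [tensor, tensor, tensor, map_mul, map_mul,
    mul_assoc (cst B _ _ a) (lift B _ _ g), ← mul_assoc (lift B _ _ g) (cst B _ _ b),
    ← (commute_cst_lift b g).eq]
  simp only [mul_assoc]

omit Z [IsUnitisation A] in
theorem tensor_one (i : ℕ) (a : B) : tensor i a 1 = cst B (pp i) (qq i) a := by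
  rw [tensor, map_one, mul_one]

omit Z [IsUnitisation A] in
theorem star_tensor (i : ℕ) (a : B) (g : St ℂ (pp i) (qq i)) :
    star (tensor i a g) = tensor i (star a) (star g) := by
  rw [tensor, tensor, star_mul, map_star, map_star]
  exact (commute_cst_lift _ _).symm.star_star.eq

omit Z [IsUnitisation A] in
theorem norm_tensor_le (i : ℕ) (a : B) (g : St ℂ (pp i) (qq i)) :
    ‖tensor i a g‖ ≤ ‖a‖ * ‖g‖ :=
  (norm_mul_le _ _).trans (mul_le_mul (NonUnitalStarAlgHom.norm_apply_le _ _)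
    (NonUnitalStarAlgHom.norm_apply_le _ _) (norm_nonneg _) (norm_nonneg _))

omit Z [IsUnitisation A] in
theorem tensor_add_right (i : ℕ) (a : B) (g h : St ℂ (pp i) (qq i)) :
    tensor i a (g + h) = tensor i a g + tensor i a h := by
  rw [tensor, tensor, tensor, _root_.map_add, mul_add]

omit Z [IsUnitisation A] in
theorem tensor_sub_right (i : ℕ) (a : B) (g h : St ℂ (pp i) (qq i)) :
    tensor i a (g - h) = tensor i a g - tensor i a h := by
  rw [tensor, tensor, tensor, _root_.map_sub, mul_sub]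

omit Z [IsUnitisation A] in
theorem tensor_smul_right (i : ℕ) (r : ℂ) (a : B) (g : St ℂ (pp i) (qq i)) :
    tensor i a (r • g) = r • tensor i a g := by
  rw [tensor, tensor, _root_.map_smul, mul_smul_comm]

omit Z [IsUnitisation A] in
theorem tensor_zero_right (i : ℕ) (a : B) : tensor i a (0 : St ℂ (pp i) (qq i)) = 0 := by
  rw [tensor, _root_.map_zero, mul_zero]

omit Z [IsUnitisation A] in
theorem tensor_sub_left (i : ℕ) (a b : B) (g : St ℂ (pp i) (qq i)) :
    tensor i (a - b) g = tensor i a g - tensor i b g := by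
  rw [tensor, tensor, tensor, _root_.map_sub, sub_mul]

omit Z [IsUnitisation A] in
theorem cst_mul_tensor (i : ℕ) (a b : B) (g : St ℂ (pp i) (qq i)) :
    cst B (pp i) (qq i) a * tensor i b g = tensor i (a * b) g := by
  rw [← tensor_one, tensor_mul, one_mul]

omit Z [IsUnitisation A] in
theorem conn_tensor {i l : ℕ} (h : i ≤ l) (a : B) (g : St ℂ (pp i) (qq i)) :
    conn h (tensor i a g) = tensor l a (conn h g) := by
  obtain ⟨n, rfl⟩ := Nat.exists_eq_add_of_le h
  rw [tensor, tensor, map_mul, conn_cst, conn_push, conn_push, push_lift]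

omit Z [IsUnitisation A] in
theorem norm_cst_mul_sum_sub_le (i : ℕ) {N : ℕ} (a : B) (b : Fin N → B)
    (k : Fin N → St ℂ (pp i) (qq i)) :
    ‖cst B (pp i) (qq i) a * ∑ l, tensor i (b l) (k l) - ∑ l, tensor i (b l) (k l)‖ ≤
      ∑ l, ‖a * b l - b l‖ * ‖k l‖ := by
  rw [Finset.mul_sum, ← Finset.sum_sub_distrib]
  refine (norm_sum_le _ _).trans (Finset.sum_le_sum fun l _ => ?_)
  rw [cst_mul_tensor, ← tensor_sub_left]
  exact norm_tensor_le _ _ _

omit Z [IsUnitisation A] in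
theorem norm_tensor_comm_sum_le (i : ℕ) {N : ℕ} (a : B) (h : St ℂ (pp i) (qq i)) (c : Fin N → B)
    (k : Fin N → St ℂ (pp i) (qq i)) :
    ‖tensor i a h * ∑ l, tensor i (c l) (k l) - (∑ l, tensor i (c l) (k l)) * tensor i a h‖ ≤
      ∑ l, (‖a * c l - c l * a‖ * ‖h * k l‖ + ‖c l * a‖ * ‖h * k l - k l * h‖) := by
  rw [Finset.mul_sum, Finset.sum_mul, ← Finset.sum_sub_distrib]
  refine (norm_sum_le _ _).trans (Finset.sum_le_sum fun l _ => ?_)
  rw [tensor_mul, tensor_mul, ← sub_add_sub_cancel (tensor i (a * c l) (h * k l))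
    (tensor i (c l * a) (h * k l)), ← tensor_sub_left, ← tensor_sub_right]
  exact (norm_add_le _ _).trans (add_le_add (norm_tensor_le _ _ _) (norm_tensor_le _ _ _))

end Vale.Agent.P095.Rel.Z
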